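import Mathlib

/-! Alexander-Spanier cochains on subsets of a metric space: the algebra of tuples. -/

open Set Matrix

namespace Vale.Agent.P216R.P265.AS

variable {E E' E'' : Type} {k : Type} [CommRing k]

/-- The coboundary of a cochain (a function of `n` points), with values in functions of `n + 1`
points. -/
def d : {n : ℕ} → ((Fin n → E) → k) → ((Fin (n + 1) → E) → k)
  | 0, c, x => c (vecTail x)
  | _ + 1, c, x => c (vecTail x) - d (fun y => c (vecCons (vecHead x) y)) (vecTail x)

/-- The prism operator of two maps. -/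
def prism (f₀ f₁ : E → E') : {n : ℕ} → ((Fin (n + 1) → E') → k) → ((Fin n → E) → k)
  | 0, _, _ => 0
  | _ + 1, c, x => c (vecCons (f₀ (vecHead x)) (vecCons (f₁ (vecHead x)) (f₁ ∘ vecTail x))) -
      prism f₀ f₁ (fun y => c (vecCons (f₀ (vecHead x)) y)) (vecTail x)

theorem d_zero_apply (c : (Fin 0 → E) → k) (x : Fin 1 → E) : d c x = c (vecTail x) := rfl

theorem d_succ_apply {n : ℕ} (c : (Fin (n + 1) → E) → k) (x : Fin (n + 2) → E) :
    d c x = c (vecTail x) - d (fun y => c (vecCons (vecHead x) y)) (vecTail x) := rfl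

theorem d_cons {n : ℕ} (c : (Fin (n + 1) → E) → k) (a : E) (x : Fin (n + 1) → E) :
    d c (vecCons a x) = c x - d (fun y => c (vecCons a y)) x := by
  rw [d_succ_apply, tail_cons, head_cons]

theorem prism_succ_apply (f₀ f₁ : E → E') {n : ℕ} (c : (Fin (n + 2) → E') → k)
    (x : Fin (n + 1) → E) : prism f₀ f₁ c x =
      c (vecCons (f₀ (vecHead x)) (vecCons (f₁ (vecHead x)) (f₁ ∘ vecTail x))) -
      prism f₀ f₁ (fun y => c (vecCons (f₀ (vecHead x)) y)) (vecTail x) := rfl

theorem prism_cons (f₀ f₁ : E → E') {n : ℕ} (c : (Fin (n + 2) → E') → k) (a : E)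
    (x : Fin n → E) : prism f₀ f₁ c (vecCons a x) =
      c (vecCons (f₀ a) (vecCons (f₁ a) (f₁ ∘ x))) -
      prism f₀ f₁ (fun y => c (vecCons (f₀ a) y)) x := by
  rw [prism_succ_apply, tail_cons, head_cons]

theorem d_add {n : ℕ} (c c' : (Fin n → E) → k) : d (c + c') = d c + d c' := by
  induction n with
  | zero => rfl
  | succ n ih =>
    funext x
    have := congrFun (ih (fun y => c (vecCons (vecHead x) y))
      (fun y => c' (vecCons (vecHead x) y))) (vecTail x)
    rw [d_succ_apply, Pi.add_apply, Pi.add_apply, d_succ_apply, d_succ_apply]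
    rw [show (fun y => (c + c') (vecCons (vecHead x) y)) =
      (fun y => c (vecCons (vecHead x) y)) + (fun y => c' (vecCons (vecHead x) y)) from rfl, this]
    simp only [Pi.add_apply]
    ring

theorem d_smul {n : ℕ} (a : k) (c : (Fin n → E) → k) : d (a • c) = a • d c := by
  induction n with
  | zero => rfl
  | succ n ih =>
    funext x
    have := congrFun (ih (fun y => c (vecCons (vecHead x) y))) (vecTail x)
    rw [d_succ_apply, Pi.smul_apply, Pi.smul_apply, d_succ_apply]
    rw [show (fun y => (a • c) (vecCons (vecHead x) y)) =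
      a • (fun y => c (vecCons (vecHead x) y)) from rfl, this]
    simp only [Pi.smul_apply, smul_eq_mul]
    ring

/-- The coboundary as a linear map. -/
def dL (E k : Type) [CommRing k] (n : ℕ) : ((Fin n → E) → k) →ₗ[k] ((Fin (n + 1) → E) → k) where
  toFun := d
  map_add' := d_add
  map_smul' := d_smul

@[simp] theorem dL_apply {n : ℕ} (c : (Fin n → E) → k) : dL E k n c = d c := rfl

theorem d_sub {n : ℕ} (c c' : (Fin n → E) → k) : d (c - c') = d c - d c' :=
  (dL E k n).map_sub c c'

theorem d_neg {n : ℕ} (c : (Fin n → E) → k) : d (-c) = -d c := (dL E k n).map_neg c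

theorem d_zero {n : ℕ} : d (0 : (Fin n → E) → k) = 0 := (dL E k n).map_zero

theorem d_d {n : ℕ} (c : (Fin n → E) → k) : d (d c) = 0 := by
  induction n with
  | zero =>
    funext x
    rw [d_succ_apply, d_zero_apply]
    rw [show (fun y => d c (vecCons (vecHead x) y)) = c from by
      funext y
      rw [d_zero_apply, tail_cons]]
    simp [d_zero_apply]
  | succ n ih =>
    funext x
    rw [d_succ_apply]
    rw [show (fun y => d c (vecCons (vecHead x) y)) =
      c - d (fun y => c (vecCons (vecHead x) y)) from by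
        funext y
        rw [d_cons]; rfl]
    rw [d_sub, ih]
    simp

/-- `y` takes its values among the entries of `x`. -/
def Sub {m n : ℕ} (y : Fin m → E) (x : Fin n → E) : Prop := ∀ i, ∃ j, y i = x j

theorem Sub.refl {n : ℕ} (x : Fin n → E) : Sub x x := fun i => ⟨i, rfl⟩

theorem Sub.trans {l m n : ℕ} {z : Fin l → E} {y : Fin m → E} {x : Fin n → E} (h : Sub z y)
    (h' : Sub y x) : Sub z x := fun i => by
  obtain ⟨j, hj⟩ := h i
  obtain ⟨l, hl⟩ := h' j
  exact ⟨l, hj.trans hl⟩

theorem sub_tail {n : ℕ} (x : Fin (n + 1) → E) : Sub (vecTail x) x := fun i => ⟨i.succ, rfl⟩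

theorem Sub.cons {m n : ℕ} {y : Fin m → E} {x : Fin n → E} (h : Sub y x) {a : E}
    (ha : ∃ j, a = x j) : Sub (vecCons a y) x := by
  intro i
  refine Fin.cases ?_ (fun i => ?_) i
  · simpa using ha
  · simpa using h i

theorem d_congr {n : ℕ} {c c' : (Fin n → E) → k} {x : Fin (n + 1) → E}
    (h : ∀ y, Sub y x → c y = c' y) : d c x = d c' x := by
  induction n with
  | zero => exact h _ (sub_tail x)
  | succ n ih =>
    rw [d_succ_apply, d_succ_apply, h _ (sub_tail x)]
    rw [ih (c := fun y => c (vecCons (vecHead x) y)) (c' := fun y => c' (vecCons (vecHead x) y))]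
    intro y hy
    exact h _ ((hy.trans (sub_tail x)).cons ⟨0, rfl⟩)

theorem d_eq_zero {n : ℕ} {c : (Fin n → E) → k} {x : Fin (n + 1) → E}
    (h : ∀ y, Sub y x → c y = 0) : d c x = 0 := by
  rw [d_congr (c' := 0) h, d_zero]; rfl

/-- Pull back by `f`. -/
def pb (f : E → E') {n : ℕ} : ((Fin n → E') → k) →ₗ[k] ((Fin n → E) → k) where
  toFun c x := c (f ∘ x)
  map_add' _ _ := rfl
  map_smul' _ _ := rfl

@[simp] theorem pb_apply (f : E → E') {n : ℕ} (c : (Fin n → E') → k) (x : Fin n → E) :
    pb f c x = c (f ∘ x) := rfl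

theorem comp_vecCons (f : E → E') {n : ℕ} (a : E) (x : Fin n → E) :
    f ∘ vecCons a x = vecCons (f a) (f ∘ x) := by
  funext i
  refine Fin.cases ?_ (fun i => ?_) i <;> simp

theorem comp_vecTail (f : E → E') {n : ℕ} (x : Fin (n + 1) → E) :
    f ∘ vecTail x = vecTail (f ∘ x) := rfl

theorem comp_vecHead (f : E → E') {n : ℕ} (x : Fin (n + 1) → E) :
    f (vecHead x) = vecHead (f ∘ x) := rfl

theorem d_pb (f : E → E') {n : ℕ} (c : (Fin n → E') → k) : d (pb f c) = pb f (d c) := by
  induction n with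
  | zero => rfl
  | succ n ih =>
    funext x
    rw [d_succ_apply]
    rw [show (fun y => pb f c (vecCons (vecHead x) y)) =
      pb f (fun y => c (vecCons (f (vecHead x)) y)) from by
        funext y
        simp [comp_vecCons]]
    rw [ih]
    rfl

theorem prism_add (f₀ f₁ : E → E') {n : ℕ} (c c' : (Fin (n + 1) → E') → k) :
    prism f₀ f₁ (c + c') = prism f₀ f₁ c + prism f₀ f₁ c' := by
  induction n with
  | zero => funext x; simp [prism]
  | succ n ih =>
    funext x
    have := congrFun (ih (fun y => c (vecCons (f₀ (vecHead x)) y))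
      (fun y => c' (vecCons (f₀ (vecHead x)) y))) (vecTail x)
    rw [prism_succ_apply, Pi.add_apply, Pi.add_apply, prism_succ_apply, prism_succ_apply]
    rw [show (fun y => (c + c') (vecCons (f₀ (vecHead x)) y)) =
      (fun y => c (vecCons (f₀ (vecHead x)) y)) + (fun y => c' (vecCons (f₀ (vecHead x)) y))
      from rfl, this]
    simp only [Pi.add_apply]
    ring

theorem prism_smul (f₀ f₁ : E → E') {n : ℕ} (a : k) (c : (Fin (n + 1) → E') → k) :
    prism f₀ f₁ (a • c) = a • prism f₀ f₁ c := by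
  induction n with
  | zero => funext x; simp [prism]
  | succ n ih =>
    funext x
    have := congrFun (ih (fun y => c (vecCons (f₀ (vecHead x)) y))) (vecTail x)
    rw [prism_succ_apply, Pi.smul_apply, Pi.smul_apply, prism_succ_apply]
    rw [show (fun y => (a • c) (vecCons (f₀ (vecHead x)) y)) =
      a • (fun y => c (vecCons (f₀ (vecHead x)) y)) from rfl, this]
    simp only [Pi.smul_apply, smul_eq_mul]
    ring

/-- The prism operator as a linear map. -/
def prismL (k : Type) [CommRing k] (f₀ f₁ : E → E') (n : ℕ) :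
    ((Fin (n + 1) → E') → k) →ₗ[k] ((Fin n → E) → k) where
  toFun := prism f₀ f₁
  map_add' := prism_add f₀ f₁
  map_smul' := prism_smul f₀ f₁

theorem prism_sub (f₀ f₁ : E → E') {n : ℕ} (c c' : (Fin (n + 1) → E') → k) :
    prism f₀ f₁ (c - c') = prism f₀ f₁ c - prism f₀ f₁ c' :=
  (prismL k f₀ f₁ n).map_sub c c'

/-- The prism identity. -/
theorem d_prism (f₀ f₁ : E → E') {n : ℕ} (c : (Fin (n + 1) → E') → k) (x : Fin (n + 1) → E) :
    d (prism f₀ f₁ c) x + prism f₀ f₁ (d c) x = c (f₁ ∘ x) - c (f₀ ∘ x) := by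
  induction n with
  | zero =>
    obtain ⟨a, x, rfl⟩ : ∃ a y, x = vecCons a y := ⟨vecHead x, vecTail x, by simp⟩
    rw [prism_cons, d_cons, d_zero_apply, d_zero_apply]
    have h0 : ∀ y z : Fin 0 → E', y = z := fun y z => Subsingleton.elim _ _
    rw [comp_vecCons, comp_vecCons, h0 (f₀ ∘ x) (vecTail (vecCons (f₁ a) (f₁ ∘ x)))]
    simp only [prism]
    ring
  | succ n ih =>
    obtain ⟨a, x, rfl⟩ : ∃ a y, x = vecCons a y := ⟨vecHead x, vecTail x, by simp⟩
    have h1 : (fun y => prism f₀ f₁ c (vecCons a y)) =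
        pb f₁ (fun y => c (vecCons (f₀ a) (vecCons (f₁ a) y))) -
          prism f₀ f₁ (fun y => c (vecCons (f₀ a) y)) := by
      funext y
      rw [prism_cons]; rfl
    have h2 : (fun y => d c (vecCons (f₀ a) y)) = c - d (fun y => c (vecCons (f₀ a) y)) := by
      funext y
      rw [d_cons]; rfl
    rw [d_cons, h1, prism_cons, h2, prism_sub, d_sub, d_pb, d_cons, d_cons]
    have h3 := ih (fun y => c (vecCons (f₀ a) y)) x
    simp only [Pi.sub_apply, pb_apply, comp_vecCons] at h3 ⊢
    linear_combination h3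

/-- The values of `prism c` at `x` only involve the values of `c` at tuples with entries among
the `f₀ (x j)` and `f₁ (x j)`. -/
theorem prism_eq_zero (f₀ f₁ : E → E') {n : ℕ} {c : (Fin (n + 1) → E') → k} {x : Fin n → E}
    (h : ∀ y, (∀ i, ∃ j, y i = f₀ (x j) ∨ y i = f₁ (x j)) → c y = 0) :
    prism f₀ f₁ c x = 0 := by
  induction n with
  | zero => rfl
  | succ n ih =>
    rw [prism_succ_apply]
    rw [h, ih, sub_zero]
    · intro y hy
      apply h
      intro i
      refine Fin.cases ?_ (fun i => ?_) i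
      · exact ⟨0, Or.inl rfl⟩
      · obtain ⟨j, hj⟩ := hy i
        exact ⟨j.succ, by rw [cons_val_succ]; exact hj⟩
    · intro i
      refine Fin.cases ?_ (fun i => ?_) i
      · exact ⟨0, Or.inl rfl⟩
      · refine Fin.cases ?_ (fun i => ?_) i
        · exact ⟨0, Or.inr rfl⟩
        · exact ⟨i.succ, Or.inr rfl⟩

theorem prism_comp (f₀ f₁ : E → E') (g : E → E) (g' : E' → E') {n : ℕ}
    (c : (Fin (n + 1) → E') → k) (x : Fin n → E) (h₀ : ∀ i, f₀ (g (x i)) = g' (f₀ (x i)))
    (h₁ : ∀ i, f₁ (g (x i)) = g' (f₁ (x i))) :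
    prism f₀ f₁ c (g ∘ x) = prism f₀ f₁ (pb g' c) x := by
  induction n with
  | zero => rfl
  | succ n ih =>
    obtain ⟨a, x, rfl⟩ : ∃ a y, x = vecCons a y := ⟨vecHead x, vecTail x, by simp⟩
    rw [comp_vecCons, prism_cons, prism_cons]
    have h0 := h₀ 0
    have h1 := h₁ 0
    have h0' := fun i : Fin n => h₀ i.succ
    have h1' := fun i : Fin n => h₁ i.succ
    simp only [cons_val_zero, cons_val_succ] at h0 h1 h0' h1'
    rw [ih _ _ h0' h1', h0, h1]
    rw [show f₁ ∘ g ∘ x = g' ∘ f₁ ∘ x from funext h1']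
    simp only [pb_apply, comp_vecCons]
    congr 2

end Vale.Agent.P216R.P265.AS
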