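import Vale.Agent.P216.Rg.AS0

/-! Small tuples and extension by zero (coefficients: any commutative ring). -/

open Set Matrix

namespace Vale.Agent.P216R.P265.AS

variable {E E' E'' : Type} [PseudoMetricSpace E] [PseudoMetricSpace E'] [PseudoMetricSpace E'']
  {k : Type} [CommRing k]

/-- The entries of `x` lie in `X` and have mutual distances `< ε`. -/
def Sm (X : Set E) (ε : ℝ) {n : ℕ} (x : Fin n → E) : Prop :=
  (∀ i, x i ∈ X) ∧ ∀ i j, dist (x i) (x j) < ε

theorem Sm.mono {X Y : Set E} {ε δ : ℝ} {n : ℕ} {x : Fin n → E} (h : Sm X ε x) (hXY : X ⊆ Y)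
    (hε : ε ≤ δ) : Sm Y δ x := ⟨fun i => hXY (h.1 i), fun i j => (h.2 i j).trans_le hε⟩

theorem Sm.sub {X : Set E} {ε : ℝ} {m n : ℕ} {x : Fin n → E} {y : Fin m → E} (h : Sm X ε x)
    (hy : Sub y x) : Sm X ε y := by
  refine ⟨fun i => ?_, fun i j => ?_⟩
  · obtain ⟨j, hj⟩ := hy i
    exact hj ▸ h.1 j
  · obtain ⟨i', hi⟩ := hy i
    obtain ⟨j', hj⟩ := hy j
    rw [hi, hj]
    exact h.2 i' j'

omit [PseudoMetricSpace E] in
theorem sub_mem {X : Set E} {m n : ℕ} {x : Fin n → E} {y : Fin m → E} (h : ∀ i, x i ∈ X)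
    (hy : Sub y x) : ∀ i, y i ∈ X := fun i => by
  obtain ⟨j, hj⟩ := hy i
  exact hj ▸ h j

/-- Restriction of a cochain to the tuples of `Y` (extension by zero). -/
noncomputable def rs (k : Type) [CommRing k] (Y : Set E) (n : ℕ) :
    ((Fin n → E) → k) →ₗ[k] ((Fin n → E) → k) := by
  classical
  exact
  { toFun := fun c x => if ∀ i, x i ∈ Y then c x else 0
    map_add' := fun c c' => by
      funext x; simp only [Pi.add_apply]; split_ifs <;> simp
    map_smul' := fun a c => by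
      funext x; simp only [Pi.smul_apply, RingHom.id_apply]; split_ifs <;> simp }

omit [PseudoMetricSpace E] in
theorem rs_of_mem {Y : Set E} {n : ℕ} {c : (Fin n → E) → k} {x : Fin n → E} (h : ∀ i, x i ∈ Y) :
    rs k Y n c x = c x := by
  classical
  exact if_pos h

omit [PseudoMetricSpace E] in
theorem rs_of_notMem {Y : Set E} {n : ℕ} {c : (Fin n → E) → k} {x : Fin n → E}
    (h : ¬ ∀ i, x i ∈ Y) : rs k Y n c x = 0 := by
  classical
  exact if_neg h


end Vale.Agent.P216R.P265.AS
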