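import Mathlib

/-! Cohomology of subquotients of an ambient cochain complex, in elementary form. -/

namespace Vale.Agent.P216R.AS

/-- A cochain complex of `k`-vector spaces in degrees `≥ 0`. -/
structure Amb (k : Type) [CommRing k] where
  /-- the terms -/
  K : ℕ → Type
  [acg : ∀ n, AddCommGroup (K n)]
  [mod : ∀ n, Module k (K n)]
  /-- the differential -/
  d : ∀ n, K n →ₗ[k] K (n + 1)
  d_d : ∀ n x, d (n + 1) (d n x) = 0

attribute [instance] Amb.acg Amb.mod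
attribute [simp] Amb.d_d

variable {k : Type} [CommRing k]

/-- A subcomplex. -/
@[ext] structure Sub (C : Amb k) where
  /-- the terms -/
  S : ∀ n, Submodule k (C.K n)
  d_mem : ∀ {n x}, x ∈ S n → C.d n x ∈ S (n + 1)

namespace Sub

variable {C : Amb k}

instance : CoeFun (Sub C) fun _ => ∀ n, Submodule k (C.K n) := ⟨Sub.S⟩

instance : PartialOrder (Sub C) where
  le S T := ∀ n, S n ≤ T n
  le_refl _ _ := le_rfl
  le_trans _ _ _ h h' n := (h n).trans (h' n)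
  le_antisymm _ _ h h' := Sub.ext (funext fun n => le_antisymm (h n) (h' n))

theorem le_def {S T : Sub C} : S ≤ T ↔ ∀ n, S n ≤ T n := Iff.rfl

instance : Lattice (Sub C) where
  inf S T := ⟨fun n => S n ⊓ T n, fun h => ⟨S.d_mem h.1, T.d_mem h.2⟩⟩
  sup S T := ⟨fun n => S n ⊔ T n, fun {n x} h => by
    obtain ⟨y, hy, z, hz, rfl⟩ := Submodule.mem_sup.1 h
    rw [map_add]
    exact Submodule.add_mem_sup (S.d_mem hy) (T.d_mem hz)⟩
  inf_le_left _ _ _ := inf_le_left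
  inf_le_right _ _ _ := inf_le_right
  le_inf _ _ _ h h' n := le_inf (h n) (h' n)
  le_sup_left _ _ _ := le_sup_left
  le_sup_right _ _ _ := le_sup_right
  sup_le _ _ _ h h' n := sup_le (h n) (h' n)

instance : OrderBot (Sub C) where
  bot := ⟨fun _ => ⊥, fun {n x} h => by
    rw [Submodule.mem_bot] at h ⊢
    rw [h, map_zero]⟩
  bot_le _ _ := bot_le

instance : OrderTop (Sub C) where
  top := ⟨fun _ => ⊤, fun _ => trivial⟩
  le_top _ _ := le_top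

@[simp] theorem inf_apply (S T : Sub C) (n : ℕ) : (S ⊓ T) n = S n ⊓ T n := rfl
@[simp] theorem sup_apply (S T : Sub C) (n : ℕ) : (S ⊔ T) n = S n ⊔ T n := rfl
@[simp] theorem bot_apply (n : ℕ) : (⊥ : Sub C) n = ⊥ := rfl
@[simp] theorem top_apply (n : ℕ) : (⊤ : Sub C) n = ⊤ := rfl

end Sub

variable {C C' C'' : Amb k}

/-- The image of `S (n - 1)` under the differential. -/
def im (S : Sub C) : ∀ n, Submodule k (C.K n)
  | 0 => ⊥
  | n + 1 => (S n).map (C.d n)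

/-- Relative cocycles. -/
def Zc (S T : Sub C) (n : ℕ) : Submodule k (C.K n) := S n ⊓ (T (n + 1)).comap (C.d n)

/-- Relative coboundaries. -/
def Bc (S T : Sub C) (n : ℕ) : Submodule k (C.K n) := T n ⊔ im S n

theorem mem_Zc {S T : Sub C} {n : ℕ} {x : C.K n} : x ∈ Zc S T n ↔ x ∈ S n ∧ C.d n x ∈ T (n + 1) :=
  Iff.rfl

theorem mem_im_zero {S : Sub C} {x : C.K 0} : x ∈ im S 0 ↔ x = 0 := Submodule.mem_bot k

theorem mem_im_succ {S : Sub C} {n : ℕ} {x : C.K (n + 1)} :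
    x ∈ im S (n + 1) ↔ ∃ y ∈ S n, C.d n y = x := Submodule.mem_map

theorem d_im {S : Sub C} {n : ℕ} {x : C.K n} (h : x ∈ im S n) : C.d n x = 0 := by
  cases n with
  | zero => rw [mem_im_zero.1 h, map_zero]
  | succ n => obtain ⟨y, -, rfl⟩ := mem_im_succ.1 h; exact C.d_d n y

theorem im_le (S : Sub C) (n : ℕ) : im S n ≤ S n := by
  cases n with
  | zero => exact bot_le
  | succ n => rintro x hx; obtain ⟨y, hy, rfl⟩ := mem_im_succ.1 hx; exact S.d_mem hy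

theorem im_mono {S S' : Sub C} (h : S ≤ S') (n : ℕ) : im S n ≤ im S' n := by
  cases n with
  | zero => exact le_rfl
  | succ n => exact Submodule.map_mono (h n)

theorem mem_Bc {S T : Sub C} {n : ℕ} {x : C.K n} :
    x ∈ Bc S T n ↔ ∃ t ∈ T n, ∃ w ∈ im S n, t + w = x := Submodule.mem_sup

theorem mem_Bc_zero {S T : Sub C} {x : C.K 0} : x ∈ Bc S T 0 ↔ x ∈ T 0 := by
  rw [Bc, im, sup_bot_eq]

theorem mem_Bc_succ {S T : Sub C} {n : ℕ} {x : C.K (n + 1)} :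
    x ∈ Bc S T (n + 1) ↔ ∃ y ∈ S n, x - C.d n y ∈ T (n + 1) := by
  rw [mem_Bc]
  constructor
  · rintro ⟨t, ht, w, hw, rfl⟩
    obtain ⟨y, hy, rfl⟩ := mem_im_succ.1 hw
    exact ⟨y, hy, by rwa [add_sub_cancel_right]⟩
  · rintro ⟨y, hy, h⟩
    exact ⟨_, h, _, mem_im_succ.2 ⟨y, hy, rfl⟩, by rw [sub_add_cancel]⟩

theorem T_le_Bc (S T : Sub C) (n : ℕ) : T n ≤ Bc S T n := le_sup_left

theorem im_le_Bc (S T : Sub C) (n : ℕ) : im S n ≤ Bc S T n := le_sup_right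

theorem d_mem_Bc {S T : Sub C} {n : ℕ} {y : C.K n} (hy : y ∈ S n) :
    C.d n y ∈ Bc S T (n + 1) := im_le_Bc _ _ _ (mem_im_succ.2 ⟨y, hy, rfl⟩)

theorem Bc_le_Zc {S T : Sub C} (h : T ≤ S) (n : ℕ) : Bc S T n ≤ Zc S T n := by
  refine sup_le (fun x hx => ⟨h n hx, T.d_mem hx⟩) fun x hx => ⟨im_le _ _ hx, ?_⟩
  change C.d n x ∈ T (n + 1)
  rw [d_im hx]
  exact Submodule.zero_mem _

theorem Zc_mono {S T S' T' : Sub C} (h : S ≤ S') (h' : T ≤ T') (n : ℕ) :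
    Zc S T n ≤ Zc S' T' n := fun _ hx => ⟨h n hx.1, h' _ hx.2⟩

theorem Bc_mono {S T S' T' : Sub C} (h : S ≤ S') (h' : T ≤ T') (n : ℕ) :
    Bc S T n ≤ Bc S' T' n := sup_le_sup (h' n) (im_mono h n)

/-- The cohomology of the subquotient `S / T`. -/
def H (S T : Sub C) (n : ℕ) : Type := Zc S T n ⧸ (Bc S T n).comap (Zc S T n).subtype

namespace H

instance (S T : Sub C) (n : ℕ) : AddCommGroup (H S T n) :=
  inferInstanceAs (AddCommGroup (Zc S T n ⧸ (Bc S T n).comap (Zc S T n).subtype))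

instance (S T : Sub C) (n : ℕ) : Module k (H S T n) :=
  inferInstanceAs (Module k (Zc S T n ⧸ (Bc S T n).comap (Zc S T n).subtype))

/-- The class of a cocycle. -/
def mkL (S T : Sub C) (n : ℕ) : Zc S T n →ₗ[k] H S T n :=
  ((Bc S T n).comap (Zc S T n).subtype).mkQ

/-- The class of a cocycle. -/
def mk {S T : Sub C} {n : ℕ} (x : C.K n) (hx : x ∈ Zc S T n) : H S T n := mkL S T n ⟨x, hx⟩

variable {S T R : Sub C} {n : ℕ}

theorem mkL_surjective : Function.Surjective (mkL S T n) := Submodule.mkQ_surjective _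

theorem exists_mk (h : H S T n) : ∃ x, ∃ hx : x ∈ Zc S T n, mk x hx = h := by
  obtain ⟨⟨x, hx⟩, rfl⟩ := mkL_surjective h
  exact ⟨x, hx, rfl⟩

theorem mkL_apply (x : Zc S T n) : mkL S T n x = mk x.1 x.2 := rfl

theorem mk_eq_zero {x : C.K n} {hx : x ∈ Zc S T n} : mk x hx = 0 ↔ x ∈ Bc S T n :=
  (Submodule.Quotient.mk_eq_zero ((Bc S T n).comap (Zc S T n).subtype)
    (x := (⟨x, hx⟩ : Zc S T n))).trans Iff.rfl

theorem mk_add {x y : C.K n} (hx : x ∈ Zc S T n) (hy : y ∈ Zc S T n) :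
    mk (x + y) (Submodule.add_mem _ hx hy) = mk x hx + mk y hy :=
  (mkL S T n).map_add ⟨x, hx⟩ ⟨y, hy⟩

theorem mk_sub {x y : C.K n} (hx : x ∈ Zc S T n) (hy : y ∈ Zc S T n) :
    mk (x - y) (Submodule.sub_mem _ hx hy) = mk x hx - mk y hy :=
  (mkL S T n).map_sub ⟨x, hx⟩ ⟨y, hy⟩

theorem mk_neg {x : C.K n} (hx : x ∈ Zc S T n) :
    mk (-x) (Submodule.neg_mem _ hx) = -mk x hx :=
  (mkL S T n).map_neg ⟨x, hx⟩

theorem mk_smul (a : k) {x : C.K n} (hx : x ∈ Zc S T n) :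
    mk (a • x) (Submodule.smul_mem _ a hx) = a • mk x hx :=
  (mkL S T n).map_smul a ⟨x, hx⟩

theorem mk_eq_mk {x y : C.K n} {hx : x ∈ Zc S T n} {hy : y ∈ Zc S T n} :
    mk x hx = mk y hy ↔ x - y ∈ Bc S T n := by
  rw [← sub_eq_zero, ← mk_sub, mk_eq_zero]

/-- A linear map out of the cohomology, from a linear map on the ambient space. -/
def lift {M : Type} [AddCommGroup M] [Module k M] (f : Zc S T n →ₗ[k] M)
    (hf : ∀ x (hx : x ∈ Zc S T n), x ∈ Bc S T n → f ⟨x, hx⟩ = 0) : H S T n →ₗ[k] M :=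
  ((Bc S T n).comap (Zc S T n).subtype).liftQ f fun x hx => hf x.1 x.2 hx

@[simp] theorem lift_mk {M : Type} [AddCommGroup M] [Module k M] (f : Zc S T n →ₗ[k] M)
    (hf : ∀ x (hx : x ∈ Zc S T n), x ∈ Bc S T n → f ⟨x, hx⟩ = 0) {x : C.K n}
    (hx : x ∈ Zc S T n) : lift f hf (mk x hx) = f ⟨x, hx⟩ := rfl

theorem hom_ext {M : Type} [AddCommGroup M] [Module k M] {f g : H S T n →ₗ[k] M}
    (h : ∀ x (hx : x ∈ Zc S T n), f (mk x hx) = g (mk x hx)) : f = g := by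
  ext y
  obtain ⟨x, hx, rfl⟩ := exists_mk y
  exact h x hx

theorem subsingleton_iff : Subsingleton (H S T n) ↔ ∀ x ∈ Zc S T n, x ∈ Bc S T n := by
  constructor
  · intro h x hx
    exact mk_eq_zero.1 (Subsingleton.elim (mk x hx) 0)
  · intro h
    refine ⟨fun a b => ?_⟩
    obtain ⟨x, hx, rfl⟩ := exists_mk a
    obtain ⟨y, hy, rfl⟩ := exists_mk b
    exact mk_eq_mk.2 (Submodule.sub_mem _ (h x hx) (h y hy))

end H

/-- `φ` is a morphism of subquotients `S / T → S' / T'`: a chain map only modulo `T'` on `S`. -/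
structure IsMor (S T : Sub C) (S' T' : Sub C') (φ : ∀ n, C.K n →ₗ[k] C'.K n) : Prop where
  mapS : ∀ {n x}, x ∈ S n → φ n x ∈ S' n
  mapT : ∀ {n x}, x ∈ T n → φ n x ∈ T' n
  comm : ∀ {n x}, x ∈ S n → C'.d n (φ n x) - φ (n + 1) (C.d n x) ∈ T' (n + 1)

namespace IsMor

variable {S T : Sub C} {S' T' : Sub C'} {S'' T'' : Sub C''} {φ ψ : ∀ n, C.K n →ₗ[k] C'.K n}

theorem of_comm (hS : ∀ {n x}, x ∈ S n → φ n x ∈ S' n) (hT : ∀ {n x}, x ∈ T n → φ n x ∈ T' n)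
    (hc : ∀ n x, C'.d n (φ n x) = φ (n + 1) (C.d n x)) : IsMor S T S' T' φ :=
  ⟨hS, hT, fun {n x} _ => by rw [hc, sub_self]; exact Submodule.zero_mem _⟩

theorem id_of_le {S T S' T' : Sub C} (h : S ≤ S') (h' : T ≤ T') :
    IsMor S T S' T' fun _ => LinearMap.id :=
  of_comm (fun hx => h _ hx) (fun hx => h' _ hx) fun _ _ => rfl

theorem comp {χ : ∀ n, C'.K n →ₗ[k] C''.K n} (h' : IsMor S' T' S'' T'' χ)
    (h : IsMor S T S' T' φ) : IsMor S T S'' T'' fun n => χ n ∘ₗ φ n where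
  mapS hx := h'.mapS (h.mapS hx)
  mapT hx := h'.mapT (h.mapT hx)
  comm {n x} hx := by
    have h1 := h'.comm (h.mapS hx)
    have h2 := h'.mapT (h.comm hx)
    rw [map_sub] at h2
    have h3 := Submodule.add_mem _ h1 h2
    simpa using h3

theorem mono {S T S₁ T₁ : Sub C} {S' T' S₁' T₁' : Sub C'} (h : IsMor S T S' T' φ) (hS : S₁ ≤ S)
    (hS' : ∀ {n x}, x ∈ S₁ n → φ n x ∈ S₁' n) (hT' : ∀ {n x}, x ∈ T₁ n → φ n x ∈ T₁' n)
    (hT : T' ≤ T₁') : IsMor S₁ T₁ S₁' T₁' φ where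
  mapS := hS'
  mapT := hT'
  comm hx := hT _ (h.comm (hS _ hx))

theorem mapZ (h : IsMor S T S' T' φ) {n : ℕ} {x : C.K n} (hx : x ∈ Zc S T n) :
    φ n x ∈ Zc S' T' n := by
  refine ⟨h.mapS hx.1, ?_⟩
  have := Submodule.add_mem _ (h.comm hx.1) (h.mapT hx.2)
  rwa [sub_add_cancel] at this

theorem mapB (h : IsMor S T S' T' φ) {n : ℕ} {x : C.K n} (hx : x ∈ Bc S T n) :
    φ n x ∈ Bc S' T' n := by
  obtain ⟨t, ht, w, hw, rfl⟩ := mem_Bc.1 hx
  rw [map_add]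
  refine Submodule.add_mem _ (T_le_Bc _ _ _ (h.mapT ht)) ?_
  cases n with
  | zero => rw [mem_im_zero.1 hw, map_zero]; exact Submodule.zero_mem _
  | succ n =>
    obtain ⟨y, hy, rfl⟩ := mem_im_succ.1 hw
    have h1 := h.comm hy
    have h2 : C'.d n (φ n y) ∈ Bc S' T' (n + 1) := d_mem_Bc (h.mapS hy)
    have := Submodule.sub_mem _ h2 (T_le_Bc S' T' _ h1)
    rwa [sub_sub_cancel] at this

end IsMor

/-- The map induced on cohomology. -/
def Hmap {S T : Sub C} {S' T' : Sub C'} {φ : ∀ n, C.K n →ₗ[k] C'.K n} (h : IsMor S T S' T' φ)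
    (n : ℕ) : H S T n →ₗ[k] H S' T' n :=
  H.lift (H.mkL S' T' n ∘ₗ (φ n).restrict fun _ hx => h.mapZ hx) fun x hx hB => by
    rw [LinearMap.comp_apply, H.mkL_apply, H.mk_eq_zero]
    exact h.mapB hB

section Hmap

variable {S T : Sub C} {S' T' : Sub C'} {S'' T'' : Sub C''} {φ ψ : ∀ n, C.K n →ₗ[k] C'.K n}
  {χ : ∀ n, C'.K n →ₗ[k] C''.K n} {n : ℕ}

@[simp] theorem Hmap_mk (h : IsMor S T S' T' φ) {x : C.K n} (hx : x ∈ Zc S T n) :
    Hmap h n (H.mk x hx) = H.mk (φ n x) (h.mapZ hx) := rfl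

theorem Hmap_eq_of (h : IsMor S T S' T' φ) (h' : IsMor S T S' T' ψ)
    (he : ∀ x ∈ Zc S T n, φ n x - ψ n x ∈ Bc S' T' n) : Hmap h n = Hmap h' n := by
  refine H.hom_ext fun x hx => ?_
  rw [Hmap_mk, Hmap_mk, H.mk_eq_mk]
  exact he x hx

theorem Hmap_congr (h : IsMor S T S' T' φ) (h' : IsMor S T S' T' ψ) (he : φ = ψ) :
    Hmap h n = Hmap h' n := by subst he; rfl

/-- A homotopy operator. -/
theorem Hmap_eq_of_homotopy (h : IsMor S T S' T' φ) (h' : IsMor S T S' T' ψ)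
    (P : ∀ n, C.K (n + 1) →ₗ[k] C'.K n) (hS : ∀ {n x}, x ∈ S (n + 1) → P n x ∈ S' n)
    (hT : ∀ {n x}, x ∈ T (n + 1) → P n x ∈ T' n)
    (h0 : ∀ x ∈ S 0, φ 0 x - ψ 0 x - P 0 (C.d 0 x) ∈ T' 0)
    (hs : ∀ n, ∀ x ∈ S (n + 1), φ (n + 1) x - ψ (n + 1) x - P (n + 1) (C.d (n + 1) x) -
      C'.d n (P n x) ∈ T' (n + 1)) : Hmap h n = Hmap h' n := by
  refine Hmap_eq_of h h' fun x hx => ?_
  cases n with
  | zero =>
    refine T_le_Bc _ _ _ ?_
    have := Submodule.add_mem _ (h0 x hx.1) (hT hx.2)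
    rwa [sub_add_cancel] at this
  | succ n =>
    rw [mem_Bc_succ]
    refine ⟨P n x, hS hx.1, ?_⟩
    have := Submodule.add_mem _ (hs n x hx.1) (hT hx.2)
    rwa [sub_right_comm, sub_add_cancel] at this

theorem Hmap_comp (h' : IsMor S' T' S'' T'' χ) (h : IsMor S T S' T' φ) :
    Hmap (h'.comp h) n = Hmap h' n ∘ₗ Hmap h n := H.hom_ext fun _ _ => rfl

theorem Hmap_comp_apply (h' : IsMor S' T' S'' T'' χ) (h : IsMor S T S' T' φ) (x : H S T n) :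
    Hmap (h'.comp h) n x = Hmap h' n (Hmap h n x) := by rw [Hmap_comp h' h]; rfl

theorem Hmap_id (h : IsMor S T S T fun _ => LinearMap.id) : Hmap h n = LinearMap.id :=
  H.hom_ext fun _ _ => rfl

/-- Chain level isomorphisms induce isomorphisms. -/
theorem Hmap_injective (h : IsMor S T S' T' φ)
    (hinj : ∀ {n x}, x ∈ S n → φ n x ∈ T' n → x ∈ T n)
    (hsurj : ∀ {n y}, y ∈ S' n → ∃ x ∈ S n, y - φ n x ∈ T' n) :
    Function.Injective (Hmap h n) := by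
  rw [injective_iff_map_eq_zero]
  intro a ha
  obtain ⟨x, hx, rfl⟩ := H.exists_mk a
  rw [Hmap_mk, H.mk_eq_zero] at ha
  rw [H.mk_eq_zero]
  cases n with
  | zero =>
    rw [mem_Bc_zero] at ha ⊢
    exact hinj hx.1 ha
  | succ n =>
    rw [mem_Bc_succ] at ha ⊢
    obtain ⟨y', hy', h1⟩ := ha
    obtain ⟨y, hy, h2⟩ := hsurj hy'
    refine ⟨y, hy, hinj (Submodule.sub_mem _ hx.1 (S.d_mem hy)) ?_⟩
    have h3 := h.comm hy
    have h4 := T'.d_mem h2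
    rw [map_sub] at h4
    rw [map_sub]
    have := Submodule.add_mem _ (Submodule.add_mem _ h1 h4) h3
    convert this using 1
    abel

theorem Hmap_surjective (h : IsMor S T S' T' φ)
    (hinj : ∀ {n x}, x ∈ S n → φ n x ∈ T' n → x ∈ T n)
    (hsurj : ∀ {n y}, y ∈ S' n → ∃ x ∈ S n, y - φ n x ∈ T' n) :
    Function.Surjective (Hmap h n) := by
  intro b
  obtain ⟨y, hy, rfl⟩ := H.exists_mk b
  obtain ⟨x, hx, h1⟩ := hsurj hy.1
  have h2 := T'.d_mem h1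
  rw [map_sub] at h2
  have h3 := h.comm hx
  have h4 : φ (n + 1) (C.d n x) ∈ T' (n + 1) := by
    have h5 : C'.d n y ∈ T' (n + 1) := hy.2
    have := Submodule.sub_mem _ (Submodule.sub_mem _ h5 h2) h3
    convert this using 1
    abel
  have h5 : x ∈ Zc S T n := ⟨hx, hinj (S.d_mem hx) h4⟩
  refine ⟨H.mk x h5, ?_⟩
  rw [Hmap_mk h h5, eq_comm, H.mk_eq_mk]
  exact T_le_Bc _ _ _ h1

theorem Hmap_bijective (h : IsMor S T S' T' φ)
    (hinj : ∀ {n x}, x ∈ S n → φ n x ∈ T' n → x ∈ T n)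
    (hsurj : ∀ {n y}, y ∈ S' n → ∃ x ∈ S n, y - φ n x ∈ T' n) :
    Function.Bijective (Hmap h n) := ⟨Hmap_injective h hinj hsurj, Hmap_surjective h hinj hsurj⟩

end Hmap

/-- The map `H (S / T) → H (S' / T')` induced by inclusions `S ≤ S'` and `T ≤ T'`. -/
def Hinc {S T S' T' : Sub C} (hS : S ≤ S') (hT : T ≤ T') (n : ℕ) : H S T n →ₗ[k] H S' T' n :=
  Hmap (IsMor.id_of_le hS hT) n

section Les

variable {T S R T' S' R' : Sub C} {n : ℕ}

@[simp] theorem Hinc_mk (hS : S ≤ S') (hT : T ≤ T') {x : C.K n} (hx : x ∈ Zc S T n) :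
    Hinc hS hT n (H.mk x hx) = H.mk x (Zc_mono hS hT n hx) := rfl

theorem Hinc_comp {S'' T'' : Sub C} (hS : S ≤ S') (hT : T ≤ T') (hS' : S' ≤ S'') (hT' : T' ≤ T'')
    (x : H S T n) :
    Hinc hS' hT' n (Hinc hS hT n x) = Hinc (hS.trans hS') (hT.trans hT') n x := by
  obtain ⟨x, hx, rfl⟩ := H.exists_mk x
  rfl

theorem Hinc_refl (hS : S ≤ S) (hT : T ≤ T) (x : H S T n) : Hinc hS hT n x = x := by
  obtain ⟨x, hx, rfl⟩ := H.exists_mk x
  rfl

theorem mapZ_d (T : Sub C) {x : C.K n} (hx : x ∈ Zc R S n) : C.d n x ∈ Zc S T (n + 1) := by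
  refine ⟨hx.2, ?_⟩
  change C.d (n + 1) (C.d n x) ∈ T (n + 2)
  rw [C.d_d]
  exact Submodule.zero_mem _

/-- The connecting homomorphism `H (R / S) n → H (S / T) (n + 1)` of the triple `T ≤ S ≤ R`. -/
def Hdel (R S T : Sub C) (n : ℕ) : H R S n →ₗ[k] H S T (n + 1) :=
  H.lift (H.mkL S T (n + 1) ∘ₗ (C.d n).restrict fun _ hx => mapZ_d T hx) fun x hx hB => by
    rw [LinearMap.comp_apply, H.mkL_apply, H.mk_eq_zero]
    obtain ⟨s, hs, w, hw, rfl⟩ := mem_Bc.1 hB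
    change C.d n (s + w) ∈ _
    rw [map_add, d_im hw, add_zero]
    exact d_mem_Bc hs

@[simp] theorem Hdel_mk {x : C.K n} (hx : x ∈ Zc R S n) :
    Hdel R S T n (H.mk x hx) = H.mk (C.d n x) (mapZ_d T hx) := rfl

/-- Exactness of `H (S / T) → H (R / T) → H (R / S)`. -/
theorem exact_mid (hTS : T ≤ S) (hSR : S ≤ R) :
    Function.Exact (Hinc hSR le_rfl n : H S T n →ₗ[k] H R T n)
      (Hinc le_rfl hTS n : H R T n →ₗ[k] H R S n) := by
  intro a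
  constructor
  · intro ha
    obtain ⟨x, hx, rfl⟩ := H.exists_mk a
    rw [Hinc_mk, H.mk_eq_zero] at ha
    obtain ⟨s, hs, w, hw, rfl⟩ := mem_Bc.1 ha
    have hd : C.d n s = C.d n (s + w) := by rw [map_add, d_im hw, add_zero]
    have hs' : s ∈ Zc S T n := ⟨hs, by
      change C.d n s ∈ T (n + 1)
      rw [hd]
      exact hx.2⟩
    refine ⟨H.mk s hs', ?_⟩
    rw [Hinc_mk, eq_comm, H.mk_eq_mk, add_sub_cancel_left]
    exact im_le_Bc _ _ _ hw
  · rintro ⟨b, rfl⟩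
    obtain ⟨x, hx, rfl⟩ := H.exists_mk b
    rw [Hinc_mk, Hinc_mk, H.mk_eq_zero]
    exact T_le_Bc _ _ _ hx.1

/-- Exactness of `H (R / T) → H (R / S) → H (S / T) (n + 1)`. -/
theorem exact_del (hTS : T ≤ S) (hSR : S ≤ R) :
    Function.Exact (Hinc le_rfl hTS n : H R T n →ₗ[k] H R S n) (Hdel R S T n) := by
  intro a
  constructor
  · intro ha
    obtain ⟨x, hx, rfl⟩ := H.exists_mk a
    rw [Hdel_mk, H.mk_eq_zero, mem_Bc_succ] at ha
    obtain ⟨s, hs, h⟩ := ha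
    have hs' : x - s ∈ Zc R T n := ⟨Submodule.sub_mem _ hx.1 (hSR n hs), by
      change C.d n (x - s) ∈ T (n + 1)
      rw [map_sub]
      exact h⟩
    refine ⟨H.mk (x - s) hs', ?_⟩
    rw [Hinc_mk, H.mk_eq_mk, sub_sub_cancel_left]
    exact Submodule.neg_mem _ (T_le_Bc _ _ _ hs)
  · rintro ⟨b, rfl⟩
    obtain ⟨x, hx, rfl⟩ := H.exists_mk b
    rw [Hinc_mk, Hdel_mk, H.mk_eq_zero]
    exact T_le_Bc _ _ _ hx.2

/-- Exactness of `H (R / S) n → H (S / T) (n + 1) → H (R / T) (n + 1)`. -/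
theorem exact_inc (hTS : T ≤ S) (hSR : S ≤ R) :
    Function.Exact (Hdel R S T n)
      (Hinc hSR le_rfl (n + 1) : H S T (n + 1) →ₗ[k] H R T (n + 1)) := by
  intro a
  constructor
  · intro ha
    obtain ⟨x, hx, rfl⟩ := H.exists_mk a
    rw [Hinc_mk, H.mk_eq_zero, mem_Bc_succ] at ha
    obtain ⟨r, hr, h⟩ := ha
    have hdr : C.d n r ∈ S (n + 1) := by
      have := Submodule.sub_mem _ hx.1 (hTS _ h)
      rwa [sub_sub_cancel] at this
    have hr' : r ∈ Zc R S n := ⟨hr, hdr⟩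
    refine ⟨H.mk r hr', ?_⟩
    rw [Hdel_mk, eq_comm, H.mk_eq_mk]
    exact T_le_Bc _ _ _ h
  · rintro ⟨b, rfl⟩
    obtain ⟨x, hx, rfl⟩ := H.exists_mk b
    rw [Hdel_mk, Hinc_mk, H.mk_eq_zero]
    exact d_mem_Bc hx.1

/-- In degree zero `H (S / T) → H (R / T)` is injective. -/
theorem inc_zero_injective (hSR : S ≤ R) :
    Function.Injective (Hinc hSR le_rfl 0 : H S T 0 →ₗ[k] H R T 0) := by
  rw [injective_iff_map_eq_zero]
  intro a ha
  obtain ⟨x, hx, rfl⟩ := H.exists_mk a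
  rw [Hinc_mk, H.mk_eq_zero, mem_Bc_zero] at ha
  rwa [H.mk_eq_zero, mem_Bc_zero]

/-- Naturality of the connecting homomorphism. -/
theorem Hdel_natural {T S R : Sub C} {T' S' R' : Sub C'} {φ : ∀ n, C.K n →ₗ[k] C'.K n}
    (h : IsMor R T R' T' φ) (h₁ : IsMor R S R' S' φ) (h₂ : IsMor S T S' T' φ) (x : H R S n) :
    Hdel R' S' T' n (Hmap h₁ n x) = Hmap h₂ (n + 1) (Hdel R S T n x) := by
  obtain ⟨x, hx, rfl⟩ := H.exists_mk x
  rw [Hmap_mk, Hdel_mk, Hdel_mk, Hmap_mk, H.mk_eq_mk]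
  exact T_le_Bc _ _ _ (h.comm hx.1)

end Les

end Vale.Agent.P216R.AS
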