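import Vale.Agent.P216.Rg.Cx

/-! Mayer-Vietoris, five lemma and ranks for the cohomology of subquotients. -/

namespace Vale.Agent.P216R.AS

variable {k : Type} [CommRing k]

variable {C C' : Amb k}

/-! ### Products of complexes -/

/-- The product of two ambient complexes. -/
abbrev Amb.prod (C C' : Amb k) : Amb k where
  K n := C.K n × C'.K n
  d n := (C.d n).prodMap (C'.d n)
  d_d n x := by
    change ((C.d (n + 1)) (C.d n x.1), (C'.d (n + 1)) (C'.d n x.2)) = 0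
    rw [C.d_d, C'.d_d]; rfl

/-! ### Mayer-Vietoris -/

section MV

variable (R₁ S₁ R₂ S₂ : Sub C)

/-- `S₁ × S₂`. -/
def Sub.prod (S₁ : Sub C) (S₂ : Sub C') : Sub (C.prod C') where
  S n := (S₁ n).prod (S₂ n)
  d_mem h := ⟨S₁.d_mem h.1, S₂.d_mem h.2⟩

/-- The pairs in `R₁ × R₂` whose difference lies in `S`. -/
def mvM (S : Sub C) : Sub (C.prod C) where
  S n := (R₁ n).prod (R₂ n) ⊓
    (S n).comap (LinearMap.fst k (C.K n) (C.K n) - LinearMap.snd k (C.K n) (C.K n))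
  d_mem := by
    rintro n ⟨x, y⟩ ⟨h, h'⟩
    refine ⟨⟨R₁.d_mem h.1, R₂.d_mem h.2⟩, ?_⟩
    change C.d n x - C.d n y ∈ S (n + 1)
    rw [← map_sub]
    exact S.d_mem h'

/-- The difference map. -/
def mvDiff (C : Amb k) : ∀ n, (C.prod C).K n →ₗ[k] C.K n := fun n =>
  LinearMap.fst k (C.K n) (C.K n) - LinearMap.snd k (C.K n) (C.K n)

/-- The diagonal map. -/
def mvDiag (C : Amb k) : ∀ n, C.K n →ₗ[k] (C.prod C).K n := fun _ =>
  LinearMap.prod LinearMap.id LinearMap.id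

variable {R₁ S₁ R₂ S₂}

theorem mvDiff_isMor : IsMor (R₁.prod R₂) (mvM R₁ R₂ (S₁ ⊔ S₂)) (R₁ ⊔ R₂) (S₁ ⊔ S₂)
    (mvDiff C) where
  mapS := by
    rintro n ⟨x, y⟩ ⟨h, h'⟩
    exact Submodule.sub_mem _ (Submodule.mem_sup_left h) (Submodule.mem_sup_right h')
  mapT := by
    rintro n ⟨x, y⟩ ⟨-, h⟩
    exact h
  comm := by
    rintro n ⟨x, y⟩ -
    have : C.d n (x - y) - (C.d n x - C.d n y) = 0 := by rw [map_sub, sub_self]
    change C.d n (x - y) - (C.d n x - C.d n y) ∈ (S₁ ⊔ S₂) (n + 1)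
    rw [this]
    exact Submodule.zero_mem _

theorem mvDiff_bijective (n : ℕ) :
    Function.Bijective (Hmap (mvDiff_isMor (R₁ := R₁) (R₂ := R₂) (S₁ := S₁) (S₂ := S₂)) n) := by
  refine Hmap_bijective _ ?_ ?_
  · rintro n ⟨x, y⟩ h h'
    exact ⟨h, h'⟩
  · intro n z hz
    obtain ⟨x, hx, y, hy, rfl⟩ := Submodule.mem_sup.1 hz
    refine ⟨(x, -y), ⟨hx, Submodule.neg_mem _ hy⟩, ?_⟩
    change x + y - (x - -y) ∈ (S₁ ⊔ S₂) n
    rw [sub_neg_eq_add, sub_self]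
    exact Submodule.zero_mem _

theorem mvDiag_isMor : IsMor (R₁ ⊓ R₂) (S₁ ⊓ S₂) (mvM R₁ R₂ (S₁ ⊔ S₂)) (S₁.prod S₂)
    (mvDiag C) where
  mapS := by
    rintro n x ⟨h, h'⟩
    refine ⟨⟨h, h'⟩, ?_⟩
    change x - x ∈ (S₁ ⊔ S₂) n
    rw [sub_self]
    exact Submodule.zero_mem _
  mapT := by
    rintro n x ⟨h, h'⟩
    exact ⟨h, h'⟩
  comm := by
    intro n x _
    have : (C.d n x, C.d n x) - (C.d n x, C.d n x) = (0 : (C.prod C).K (n + 1)) := sub_self _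
    change (C.d n x, C.d n x) - (C.d n x, C.d n x) ∈ (S₁.prod S₂) (n + 1)
    rw [this]
    exact Submodule.zero_mem _

theorem mvDiag_bijective (n : ℕ) (h₁ : S₁ ≤ R₁) (h₂ : S₂ ≤ R₂) :
    Function.Bijective (Hmap (mvDiag_isMor (R₁ := R₁) (R₂ := R₂) (S₁ := S₁) (S₂ := S₂)) n) := by
  refine Hmap_bijective _ ?_ ?_
  · intro n x _ h
    exact h
  · rintro n ⟨x, y⟩ ⟨⟨hx, hy⟩, h⟩
    obtain ⟨s, hs, t, ht, hst⟩ := Submodule.mem_sup.1 h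
    have hst' : s + t = x - y := hst
    have e : x - s = y + t := by
      rw [sub_eq_iff_eq_add, add_assoc, add_comm t s, hst', add_sub_cancel]
    refine ⟨x - s, ⟨Submodule.sub_mem _ hx (h₁ _ hs), ?_⟩, ?_⟩
    · rw [e]; exact Submodule.add_mem _ hy (h₂ _ ht)
    · refine ⟨?_, ?_⟩
      · change x - (x - s) ∈ S₁ n
        rw [sub_sub_cancel]; exact hs
      · change y - (x - s) ∈ S₂ n
        rw [e, sub_add_cancel_left]; exact Submodule.neg_mem _ ht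

theorem mvM_le (S : Sub C) : mvM R₁ R₂ S ≤ R₁.prod R₂ := fun _ _ h => h.1

theorem prod_le_mvM (h₁ : S₁ ≤ R₁) (h₂ : S₂ ≤ R₂) : S₁.prod S₂ ≤ mvM R₁ R₂ (S₁ ⊔ S₂) := by
  rintro n ⟨x, y⟩ ⟨hx, hy⟩
  exact ⟨⟨h₁ _ hx, h₂ _ hy⟩,
    Submodule.sub_mem _ (Submodule.mem_sup_left hx) (Submodule.mem_sup_right hy)⟩

/-- The first projection. -/
def mvFst (C C' : Amb k) : ∀ n, (C.prod C').K n →ₗ[k] C.K n := fun n =>
  LinearMap.fst k (C.K n) (C'.K n)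

/-- The second projection. -/
def mvSnd (C C' : Amb k) : ∀ n, (C.prod C').K n →ₗ[k] C'.K n := fun n =>
  LinearMap.snd k (C.K n) (C'.K n)

/-- The connecting homomorphism of the Mayer-Vietoris sequence. -/
noncomputable def mwDel (h₁ : S₁ ≤ R₁) (h₂ : S₂ ≤ R₂) (n : ℕ) :
    H (R₁ ⊔ R₂) (S₁ ⊔ S₂) n →ₗ[k] H (R₁ ⊓ R₂) (S₁ ⊓ S₂) (n + 1) :=
  (LinearEquiv.ofBijective _ (mvDiag_bijective (n + 1) h₁ h₂)).symm.toLinearMap ∘ₗ
    Hdel (R₁.prod R₂) (mvM R₁ R₂ (S₁ ⊔ S₂)) (S₁.prod S₂) n ∘ₗ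
      (LinearEquiv.ofBijective _ (mvDiff_bijective n)).symm.toLinearMap

theorem mv_mem_left {n : ℕ} {x₁ x₂ : C.K n} {y : C.K (n + 1)} (hx₁ : x₁ ∈ R₁ n) (hx₂ : x₂ ∈ R₂ n)
    (hy₁ : C.d n x₁ - y ∈ S₁ (n + 1)) (hy₂ : C.d n x₂ - y ∈ S₂ (n + 1)) :
    x₁ - x₂ ∈ Zc (R₁ ⊔ R₂) (S₁ ⊔ S₂) n := by
  refine ⟨Submodule.sub_mem _ (Submodule.mem_sup_left hx₁) (Submodule.mem_sup_right hx₂), ?_⟩
  change C.d n (x₁ - x₂) ∈ (S₁ ⊔ S₂) (n + 1)
  have : C.d n (x₁ - x₂) = (C.d n x₁ - y) - (C.d n x₂ - y) := by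
    rw [map_sub, sub_sub_sub_cancel_right]
  rw [this]
  exact Submodule.sub_mem _ (Submodule.mem_sup_left hy₁) (Submodule.mem_sup_right hy₂)

theorem mv_mem_right {n : ℕ} {x₁ x₂ : C.K n} {y : C.K (n + 1)} (h₁ : S₁ ≤ R₁) (h₂ : S₂ ≤ R₂)
    (hx₁ : x₁ ∈ R₁ n) (hx₂ : x₂ ∈ R₂ n)
    (hy₁ : C.d n x₁ - y ∈ S₁ (n + 1)) (hy₂ : C.d n x₂ - y ∈ S₂ (n + 1)) :
    y ∈ Zc (R₁ ⊓ R₂) (S₁ ⊓ S₂) (n + 1) := by
  refine ⟨⟨?_, ?_⟩, ?_, ?_⟩
  · have := Submodule.sub_mem _ (R₁.d_mem hx₁) (h₁ _ hy₁)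
    rwa [sub_sub_cancel] at this
  · have := Submodule.sub_mem _ (R₂.d_mem hx₂) (h₂ _ hy₂)
    rwa [sub_sub_cancel] at this
  · have := S₁.d_mem hy₁
    rw [map_sub, C.d_d, zero_sub] at this
    simpa using Submodule.neg_mem _ this
  · have := S₂.d_mem hy₂
    rw [map_sub, C.d_d, zero_sub] at this
    simpa using Submodule.neg_mem _ this

/-- The connecting homomorphism on representatives. -/
theorem mwDel_mk (h₁ : S₁ ≤ R₁) (h₂ : S₂ ≤ R₂) {n : ℕ} {x₁ x₂ : C.K n} {y : C.K (n + 1)}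
    (hx₁ : x₁ ∈ R₁ n) (hx₂ : x₂ ∈ R₂ n) (hy₁ : C.d n x₁ - y ∈ S₁ (n + 1))
    (hy₂ : C.d n x₂ - y ∈ S₂ (n + 1)) :
    mwDel h₁ h₂ n (H.mk (x₁ - x₂) (mv_mem_left hx₁ hx₂ hy₁ hy₂)) =
      H.mk y (mv_mem_right h₁ h₂ hx₁ hx₂ hy₁ hy₂) := by
  have hz := mv_mem_left hx₁ hx₂ hy₁ hy₂
  have hZ : ((x₁, x₂) : (C.prod C).K n) ∈ Zc (R₁.prod R₂) (mvM R₁ R₂ (S₁ ⊔ S₂)) n := by
    refine ⟨⟨hx₁, hx₂⟩, ⟨R₁.d_mem hx₁, R₂.d_mem hx₂⟩, ?_⟩
    change C.d n x₁ - C.d n x₂ ∈ (S₁ ⊔ S₂) (n + 1)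
    rw [← map_sub]
    exact hz.2
  have e1 : (LinearEquiv.ofBijective _ (mvDiff_bijective (R₁ := R₁) (R₂ := R₂) (S₁ := S₁)
      (S₂ := S₂) n)).symm (H.mk (x₁ - x₂) hz) = H.mk (x₁, x₂) hZ := by
    rw [LinearEquiv.symm_apply_eq]
    rfl
  have e2 : (LinearEquiv.ofBijective _ (mvDiag_bijective (n + 1) h₁ h₂)).symm
      (H.mk ((C.prod C).d n (x₁, x₂)) (mapZ_d (S₁.prod S₂) hZ)) =
      H.mk y (mv_mem_right h₁ h₂ hx₁ hx₂ hy₁ hy₂) := by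
    rw [LinearEquiv.symm_apply_eq, LinearEquiv.ofBijective_apply]
    erw [Hmap_mk]
    rw [H.mk_eq_mk]
    refine T_le_Bc _ _ _ ⟨hy₁, hy₂⟩
  unfold mwDel
  rw [LinearMap.comp_apply, LinearMap.comp_apply]
  change (LinearEquiv.ofBijective _ (mvDiag_bijective (n + 1) h₁ h₂)).symm
    (Hdel _ _ _ n ((LinearEquiv.ofBijective _ (mvDiff_bijective n)).symm _)) = _
  rw [e1, Hdel_mk, e2]

/-- Every class of `H (R₁ ⊔ R₂) (S₁ ⊔ S₂)` has the form required by `mwDel_mk`. -/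
theorem mv_exists_rep {n : ℕ} (h : H (R₁ ⊔ R₂) (S₁ ⊔ S₂) n) :
    ∃ (x₁ x₂ : C.K n) (y : C.K (n + 1)) (hx₁ : x₁ ∈ R₁ n) (hx₂ : x₂ ∈ R₂ n)
      (hy₁ : C.d n x₁ - y ∈ S₁ (n + 1)) (hy₂ : C.d n x₂ - y ∈ S₂ (n + 1)),
      h = H.mk (x₁ - x₂) (mv_mem_left hx₁ hx₂ hy₁ hy₂) := by
  obtain ⟨z, hz, rfl⟩ := H.exists_mk h
  obtain ⟨x, hx, y, hy, rfl⟩ := Submodule.mem_sup.1 hz.1
  obtain ⟨s, hs, t, ht, hst⟩ := Submodule.mem_sup.1 (show C.d n (x + y) ∈ (S₁ ⊔ S₂) (n + 1)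
    from hz.2)
  refine ⟨x, -y, C.d n x - s, hx, Submodule.neg_mem _ hy, by rwa [sub_sub_cancel], ?_, ?_⟩
  · have : C.d n (-y) - (C.d n x - s) = -t := by
      rw [map_add] at hst
      rw [map_neg, eq_sub_of_add_eq' hst]
      abel
    rw [this]
    exact Submodule.neg_mem _ ht
  · rw [H.mk_eq_mk, sub_neg_eq_add, sub_self]
    exact Submodule.zero_mem _

theorem im_sup (R₁ R₂ : Sub C) (n : ℕ) : im (R₁ ⊔ R₂) n = im R₁ n ⊔ im R₂ n := by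
  cases n with
  | zero => exact (sup_bot_eq _).symm
  | succ n => exact Submodule.map_sup _ _ _

/-- The first map of the Mayer-Vietoris sequence. -/
def mvA (R₁ S₁ R₂ S₂ : Sub C) (n : ℕ) :
    H (R₁ ⊓ R₂) (S₁ ⊓ S₂) n →ₗ[k] H R₁ S₁ n × H R₂ S₂ n :=
  LinearMap.prod (Hinc inf_le_left inf_le_left n) (Hinc inf_le_right inf_le_right n)

/-- The second map of the Mayer-Vietoris sequence. -/
def mvB (R₁ S₁ R₂ S₂ : Sub C) (n : ℕ) :
    H R₁ S₁ n × H R₂ S₂ n →ₗ[k] H (R₁ ⊔ R₂) (S₁ ⊔ S₂) n :=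
  LinearMap.coprod (Hinc le_sup_left le_sup_left n) (-Hinc le_sup_right le_sup_right n)

theorem mvA_mk {n : ℕ} {x : C.K n} (hx : x ∈ Zc (R₁ ⊓ R₂) (S₁ ⊓ S₂) n) :
    mvA R₁ S₁ R₂ S₂ n (H.mk x hx) =
      (H.mk x (Zc_mono inf_le_left inf_le_left n hx),
        H.mk x (Zc_mono inf_le_right inf_le_right n hx)) := rfl

theorem mvB_mk {n : ℕ} {x y : C.K n} (hx : x ∈ Zc R₁ S₁ n) (hy : y ∈ Zc R₂ S₂ n) :
    mvB R₁ S₁ R₂ S₂ n (H.mk x hx, H.mk y hy) =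
      H.mk (x - y) (Submodule.sub_mem _ (Zc_mono le_sup_left le_sup_left n hx)
        (Zc_mono le_sup_right le_sup_right n hy)) := by
  rw [H.mk_sub (Zc_mono le_sup_left le_sup_left n hx) (Zc_mono le_sup_right le_sup_right n hy),
    sub_eq_add_neg]
  rfl

/-- Mayer-Vietoris, exactness in the middle. -/
theorem mv_exact_AB (n : ℕ) (h₁ : S₁ ≤ R₁) (h₂ : S₂ ≤ R₂) :
    Function.Exact (mvA R₁ S₁ R₂ S₂ n) (mvB R₁ S₁ R₂ S₂ n) := by
  rintro ⟨a, b⟩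
  constructor
  · intro hab
    obtain ⟨x, hx, rfl⟩ := H.exists_mk a
    obtain ⟨y, hy, rfl⟩ := H.exists_mk b
    rw [mvB_mk, H.mk_eq_zero] at hab
    obtain ⟨t, ht, w, hw, htw⟩ := mem_Bc.1 hab
    obtain ⟨s₁, hs₁, s₂, hs₂, rfl⟩ := Submodule.mem_sup.1 ht
    rw [im_sup] at hw
    obtain ⟨w₁, hw₁, w₂, hw₂, rfl⟩ := Submodule.mem_sup.1 hw
    have e : x - s₁ - w₁ = y + s₂ + w₂ := by
      have : x = y + (s₁ + s₂ + (w₁ + w₂)) := by rw [htw]; abel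
      rw [this]; abel
    have hz : x - s₁ - w₁ ∈ Zc (R₁ ⊓ R₂) (S₁ ⊓ S₂) n := by
      refine ⟨⟨?_, ?_⟩, ?_, ?_⟩
      · exact Submodule.sub_mem _ (Submodule.sub_mem _ hx.1 (h₁ _ hs₁)) (im_le _ _ hw₁)
      · rw [e]
        exact Submodule.add_mem _ (Submodule.add_mem _ hy.1 (h₂ _ hs₂)) (im_le _ _ hw₂)
      · rw [map_sub, map_sub, d_im hw₁, sub_zero]
        exact Submodule.sub_mem _ hx.2 (S₁.d_mem hs₁)
      · rw [e, map_add, map_add, d_im hw₂, add_zero]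
        exact Submodule.add_mem _ hy.2 (S₂.d_mem hs₂)
    refine ⟨H.mk _ hz, ?_⟩
    rw [mvA_mk]
    refine Prod.ext ?_ ?_
    · refine H.mk_eq_mk.2 ?_
      have : x - s₁ - w₁ - x = -(s₁ + w₁) := by abel
      rw [this]
      exact Submodule.neg_mem _ (Submodule.add_mem_sup hs₁ hw₁)
    · refine H.mk_eq_mk.2 ?_
      have : x - s₁ - w₁ - y = s₂ + w₂ := by rw [e]; abel
      rw [this]
      exact Submodule.add_mem_sup hs₂ hw₂
  · rintro ⟨c, hc⟩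
    obtain ⟨x, hx, rfl⟩ := H.exists_mk c
    rw [← hc, mvA_mk, mvB_mk, H.mk_eq_zero, sub_self]
    exact Submodule.zero_mem _

/-- Mayer-Vietoris, exactness before the connecting homomorphism. -/
theorem mv_exact_Bdel (n : ℕ) (h₁ : S₁ ≤ R₁) (h₂ : S₂ ≤ R₂) :
    Function.Exact (mvB R₁ S₁ R₂ S₂ n) (mwDel h₁ h₂ n) := by
  intro a
  constructor
  · intro ha
    obtain ⟨x₁, x₂, y, hx₁, hx₂, hy₁, hy₂, rfl⟩ := mv_exists_rep a
    rw [mwDel_mk h₁ h₂ hx₁ hx₂ hy₁ hy₂, H.mk_eq_zero, mem_Bc_succ] at ha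
    obtain ⟨r, hr, hs⟩ := ha
    have hz₁ : x₁ - r ∈ Zc R₁ S₁ n := by
      refine ⟨Submodule.sub_mem _ hx₁ hr.1, ?_⟩
      change C.d n (x₁ - r) ∈ S₁ (n + 1)
      have : C.d n (x₁ - r) = (C.d n x₁ - y) + (y - C.d n r) := by rw [map_sub]; abel
      rw [this]
      exact Submodule.add_mem _ hy₁ hs.1
    have hz₂ : x₂ - r ∈ Zc R₂ S₂ n := by
      refine ⟨Submodule.sub_mem _ hx₂ hr.2, ?_⟩
      change C.d n (x₂ - r) ∈ S₂ (n + 1)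
      have : C.d n (x₂ - r) = (C.d n x₂ - y) + (y - C.d n r) := by rw [map_sub]; abel
      rw [this]
      exact Submodule.add_mem _ hy₂ hs.2
    refine ⟨(H.mk _ hz₁, H.mk _ hz₂), ?_⟩
    rw [mvB_mk, H.mk_eq_mk, sub_sub_sub_cancel_right, sub_self]
    exact Submodule.zero_mem _
  · rintro ⟨⟨a, b⟩, rfl⟩
    obtain ⟨x, hx, rfl⟩ := H.exists_mk a
    obtain ⟨y, hy, rfl⟩ := H.exists_mk b
    rw [mvB_mk]
    have e := mwDel_mk (y := (0 : C.K (n + 1))) h₁ h₂ hx.1 hy.1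
      (by rw [sub_zero]; exact hx.2) (by rw [sub_zero]; exact hy.2)
    refine e.trans ?_
    rw [H.mk_eq_zero]
    exact Submodule.zero_mem _

/-- Mayer-Vietoris, exactness after the connecting homomorphism. -/
theorem mv_exact_delA (n : ℕ) (h₁ : S₁ ≤ R₁) (h₂ : S₂ ≤ R₂) :
    Function.Exact (mwDel h₁ h₂ n) (mvA R₁ S₁ R₂ S₂ (n + 1)) := by
  intro a
  constructor
  · intro ha
    obtain ⟨y, hy, rfl⟩ := H.exists_mk a
    rw [mvA_mk, Prod.mk_eq_zero, H.mk_eq_zero, H.mk_eq_zero, mem_Bc_succ, mem_Bc_succ] at ha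
    obtain ⟨⟨r₁, hr₁, hs₁⟩, r₂, hr₂, hs₂⟩ := ha
    have e₁ : C.d n r₁ - y ∈ S₁ (n + 1) := by
      have := Submodule.neg_mem _ hs₁
      rwa [neg_sub] at this
    have e₂ : C.d n r₂ - y ∈ S₂ (n + 1) := by
      have := Submodule.neg_mem _ hs₂
      rwa [neg_sub] at this
    exact ⟨_, mwDel_mk h₁ h₂ hr₁ hr₂ e₁ e₂⟩
  · rintro ⟨b, rfl⟩
    obtain ⟨x₁, x₂, y, hx₁, hx₂, hy₁, hy₂, rfl⟩ := mv_exists_rep b
    rw [mwDel_mk h₁ h₂ hx₁ hx₂ hy₁ hy₂, mvA_mk, Prod.mk_eq_zero, H.mk_eq_zero, H.mk_eq_zero,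
      mem_Bc_succ, mem_Bc_succ]
    refine ⟨⟨x₁, hx₁, ?_⟩, x₂, hx₂, ?_⟩
    · have := Submodule.neg_mem _ hy₁
      rwa [neg_sub] at this
    · have := Submodule.neg_mem _ hy₂
      rwa [neg_sub] at this

/-- Mayer-Vietoris in degree zero. -/
theorem mvA_zero_injective (R₁ S₁ R₂ S₂ : Sub C) :
    Function.Injective (mvA R₁ S₁ R₂ S₂ 0) := by
  rw [injective_iff_map_eq_zero]
  intro a ha
  obtain ⟨y, hy, rfl⟩ := H.exists_mk a
  rw [mvA_mk, Prod.mk_eq_zero, H.mk_eq_zero, H.mk_eq_zero, mem_Bc_zero, mem_Bc_zero] at ha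
  rw [H.mk_eq_zero, mem_Bc_zero]
  exact ha

/-- Naturality of the connecting homomorphism for inclusions. -/
theorem mwDel_natural {R₁' S₁' R₂' S₂' : Sub C} (n : ℕ) (h₁ : S₁ ≤ R₁) (h₂ : S₂ ≤ R₂)
    (h₁' : S₁' ≤ R₁') (h₂' : S₂' ≤ R₂') (a₁ : R₁ ≤ R₁') (b₁ : S₁ ≤ S₁') (a₂ : R₂ ≤ R₂')
    (b₂ : S₂ ≤ S₂') (x : H (R₁ ⊔ R₂) (S₁ ⊔ S₂) n) :
    mwDel h₁' h₂' n (Hinc (sup_le_sup a₁ a₂) (sup_le_sup b₁ b₂) n x) =
      Hinc (inf_le_inf a₁ a₂) (inf_le_inf b₁ b₂) (n + 1) (mwDel h₁ h₂ n x) := by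
  obtain ⟨x₁, x₂, y, hx₁, hx₂, hy₁, hy₂, rfl⟩ := mv_exists_rep x
  rw [Hinc_mk, mwDel_mk h₁ h₂ hx₁ hx₂ hy₁ hy₂, Hinc_mk]
  exact mwDel_mk h₁' h₂' (a₁ _ hx₁) (a₂ _ hx₂) (b₁ _ hy₁) (b₂ _ hy₂)

end MV

/-! ### Five lemma -/

section Five

variable {R S T : Sub C} {R' S' T' : Sub C'} {φ : ∀ n, C.K n →ₗ[k] C'.K n}

theorem five_mid (hTS : T ≤ S) (hSR : S ≤ R) (hTS' : T' ≤ S') (hSR' : S' ≤ R')
    (h : IsMor R T R' T' φ) (h₁ : IsMor R S R' S' φ) (h₂ : IsMor S T S' T' φ)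
    (b₁ : ∀ n, Function.Bijective (Hmap h₁ n)) (b₂ : ∀ n, Function.Bijective (Hmap h₂ n)) (n : ℕ) :
    Function.Bijective (Hmap h n) := by
  have hs : Function.Surjective (Hmap h n) :=
    LinearMap.surjective_of_surjective_of_surjective_of_injective
      (Hinc hSR le_rfl n) (Hinc le_rfl hTS n) (Hdel R S T n)
      (Hinc hSR' le_rfl n) (Hinc le_rfl hTS' n) (Hdel R' S' T' n)
      (Hmap h₂ n) (Hmap h n) (Hmap h₁ n) (Hmap h₂ (n + 1))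
      (H.hom_ext fun _ _ => rfl) (H.hom_ext fun _ _ => rfl)
      (LinearMap.ext fun x => Hdel_natural h h₁ h₂ x)
      (exact_del hTS hSR) (exact_mid hTS' hSR') (exact_del hTS' hSR') (b₂ n).2 (b₁ n).2
      (b₂ (n + 1)).1
  refine ⟨?_, hs⟩
  cases n with
  | zero =>
    rw [injective_iff_map_eq_zero]
    intro x hx
    have e : Hmap h₁ 0 (Hinc le_rfl hTS 0 x) = 0 := by
      have e0 : (Hinc le_rfl hTS' 0 : H R' T' 0 →ₗ[k] H R' S' 0) (Hmap h 0 x) = 0 := by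
        rw [hx, map_zero]
      obtain ⟨x, hx', rfl⟩ := H.exists_mk x
      exact e0
    have e' := (injective_iff_map_eq_zero _).1 (b₁ 0).1 _ e
    obtain ⟨y, rfl⟩ := (exact_mid hTS hSR x).1 e'
    have e2 : Hinc hSR' le_rfl 0 (Hmap h₂ 0 y) = 0 := by
      obtain ⟨y, hy, rfl⟩ := H.exists_mk y
      exact hx
    have e3 := (injective_iff_map_eq_zero _).1 (inc_zero_injective hSR') _ e2
    rw [(injective_iff_map_eq_zero _).1 (b₂ 0).1 _ e3, map_zero]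
  | succ n =>
    exact LinearMap.injective_of_surjective_of_injective_of_injective
      (Hdel R S T n) (Hinc hSR le_rfl (n + 1)) (Hinc le_rfl hTS (n + 1))
      (Hdel R' S' T' n) (Hinc hSR' le_rfl (n + 1)) (Hinc le_rfl hTS' (n + 1))
      (Hmap h₁ n) (Hmap h₂ (n + 1)) (Hmap h (n + 1)) (Hmap h₁ (n + 1))
      (LinearMap.ext fun x => Hdel_natural h h₁ h₂ x)
      (H.hom_ext fun _ _ => rfl) (H.hom_ext fun _ _ => rfl)
      (exact_inc hTS hSR) (exact_mid hTS hSR) (exact_inc hTS' hSR') (b₁ n).2 (b₂ (n + 1)).1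
      (b₁ (n + 1)).1

theorem five_right (hTS : T ≤ S) (hSR : S ≤ R) (hTS' : T' ≤ S') (hSR' : S' ≤ R')
    (h : IsMor R T R' T' φ) (h₁ : IsMor R S R' S' φ) (h₂ : IsMor S T S' T' φ)
    (b : ∀ n, Function.Bijective (Hmap h n)) (b₂ : ∀ n, Function.Bijective (Hmap h₂ n)) (n : ℕ) :
    Function.Bijective (Hmap h₁ n) :=
  LinearMap.bijective_of_surjective_of_bijective_of_bijective_of_injective
      (Hinc hSR le_rfl n) (Hinc le_rfl hTS n) (Hdel R S T n) (Hinc hSR le_rfl (n + 1))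
      (Hinc hSR' le_rfl n) (Hinc le_rfl hTS' n) (Hdel R' S' T' n) (Hinc hSR' le_rfl (n + 1))
      (Hmap h₂ n) (Hmap h n) (Hmap h₁ n) (Hmap h₂ (n + 1)) (Hmap h (n + 1))
      (H.hom_ext fun _ _ => rfl) (H.hom_ext fun _ _ => rfl)
      (LinearMap.ext fun x => Hdel_natural h h₁ h₂ x) (H.hom_ext fun _ _ => rfl)
      (exact_mid hTS hSR) (exact_del hTS hSR) (exact_inc hTS hSR)
      (exact_mid hTS' hSR') (exact_del hTS' hSR') (exact_inc hTS' hSR')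
      (b₂ n).2 (b n) (b₂ (n + 1)) (b (n + 1)).1

theorem five_left (hTS : T ≤ S) (hSR : S ≤ R) (hTS' : T' ≤ S') (hSR' : S' ≤ R')
    (h : IsMor R T R' T' φ) (h₁ : IsMor R S R' S' φ) (h₂ : IsMor S T S' T' φ)
    (b : ∀ n, Function.Bijective (Hmap h n)) (b₁ : ∀ n, Function.Bijective (Hmap h₁ n)) (n : ℕ) :
    Function.Bijective (Hmap h₂ n) := by
  cases n with
  | zero =>
    exact LinearMap.bijective_of_bijective_of_injective_of_left_exact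
      (Hinc hSR le_rfl 0) (Hinc le_rfl hTS 0) (Hinc hSR' le_rfl 0) (Hinc le_rfl hTS' 0)
      (Hmap h₂ 0) (Hmap h 0) (Hmap h₁ 0) (H.hom_ext fun _ _ => rfl) (H.hom_ext fun _ _ => rfl)
      (exact_mid hTS hSR) (exact_mid hTS' hSR') (b 0) (b₁ 0).1 (inc_zero_injective hSR)
      (inc_zero_injective hSR')
  | succ n =>
    exact LinearMap.bijective_of_surjective_of_bijective_of_bijective_of_injective
      (Hinc le_rfl hTS n) (Hdel R S T n) (Hinc hSR le_rfl (n + 1)) (Hinc le_rfl hTS (n + 1))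
      (Hinc le_rfl hTS' n) (Hdel R' S' T' n) (Hinc hSR' le_rfl (n + 1))
      (Hinc le_rfl hTS' (n + 1))
      (Hmap h n) (Hmap h₁ n) (Hmap h₂ (n + 1)) (Hmap h (n + 1)) (Hmap h₁ (n + 1))
      (H.hom_ext fun _ _ => rfl)
      (LinearMap.ext fun x => Hdel_natural h h₁ h₂ x)
      (H.hom_ext fun _ _ => rfl) (H.hom_ext fun _ _ => rfl)
      (exact_del hTS hSR) (exact_inc hTS hSR) (exact_mid hTS hSR)
      (exact_del hTS' hSR') (exact_inc hTS' hSR') (exact_mid hTS' hSR')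
      (b n).2 (b₁ n) (b (n + 1)) (b₁ (n + 1)).1

end Five

/-! ### Ranks along triples -/

section Rank

variable {R S T : Sub C}

/-- `H (R / T) → H (R / S)` is bijective when `S / T` is acyclic. -/
theorem inc_bijective_of_acyclic_left (hTS : T ≤ S) (hSR : S ≤ R)
    (h : ∀ n, Subsingleton (H S T n)) (n : ℕ) :
    Function.Bijective (Hinc le_rfl hTS n : H R T n →ₗ[k] H R S n) := by
  have := h
  constructor
  · rw [injective_iff_map_eq_zero]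
    intro x hx
    obtain ⟨y, rfl⟩ := (exact_mid hTS hSR x).1 hx
    rw [Subsingleton.elim y 0, map_zero]
  · intro x
    exact (exact_del hTS hSR x).1 (Subsingleton.elim _ _)

/-- `H (S / T) → H (R / T)` is bijective when `R / S` is acyclic. -/
theorem inc_bijective_of_acyclic_right (hTS : T ≤ S) (hSR : S ≤ R)
    (h : ∀ n, Subsingleton (H R S n)) (n : ℕ) :
    Function.Bijective (Hinc hSR le_rfl n : H S T n →ₗ[k] H R T n) := by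
  have := h
  constructor
  · cases n with
    | zero => exact inc_zero_injective hSR
    | succ n =>
      rw [injective_iff_map_eq_zero]
      intro x hx
      obtain ⟨y, rfl⟩ := (exact_inc hTS hSR x).1 hx
      rw [Subsingleton.elim y 0, map_zero]
  · intro x
    exact (exact_mid hTS hSR x).1 (Subsingleton.elim _ _)

end Rank

end Vale.Agent.P216R.AS
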