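import Vale.Agent.P216.Rg.Cx

/-!
Mayer-Vietoris for subquotients of a cochain complex: for subcomplexes `T₁ ≤ S₁`, `T₂ ≤ S₂` the
sequence `0 → (S₁ ⊓ S₂) / (T₁ ⊓ T₂) → S₁ / T₁ ⊕ S₂ / T₂ → (S₁ ⊔ S₂) / (T₁ ⊔ T₂) → 0` is exact.
Also comparison isomorphisms from acyclic quotients.
-/

namespace Vale.Agent.P216R.AS

variable {k : Type} [CommRing k] {C : Amb k}

section Compare

variable {T T' S S' : Sub C}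

/-- `H(S / T) → H(S' / T)` is bijective if `S' / S` is acyclic. -/
theorem Hinc_bijective_of_top (hTS : T ≤ S) (hSS' : S ≤ S')
    (h0 : ∀ n, Subsingleton (H S' S n)) (n : ℕ) :
    Function.Bijective (Hinc hSS' le_rfl n : H S T n →ₗ[k] H S' T n) := by
  constructor
  · cases n with
    | zero => exact inc_zero_injective hSS'
    | succ n =>
      rw [injective_iff_map_eq_zero]
      intro a ha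
      obtain ⟨b, rfl⟩ := (exact_inc hTS hSS' a).1 ha
      rw [(h0 n).elim b 0, map_zero]
  · intro a
    exact (exact_mid hTS hSS' a).1 ((h0 n).elim _ _)

/-- `H(S / T) → H(S / T')` is bijective if `T' / T` is acyclic. -/
theorem Hinc_bijective_of_bot (hTT' : T ≤ T') (hTS : T' ≤ S)
    (h0 : ∀ n, Subsingleton (H T' T n)) (n : ℕ) :
    Function.Bijective (Hinc le_rfl hTT' n : H S T n →ₗ[k] H S T' n) := by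
  constructor
  · rw [injective_iff_map_eq_zero]
    intro a ha
    obtain ⟨b, rfl⟩ := (exact_mid hTT' hTS a).1 ha
    rw [(h0 n).elim b 0, map_zero]
  · intro a
    exact (exact_del hTT' hTS a).1 ((h0 (n + 1)).elim _ _)

theorem Hinc_bijective (hTS : T ≤ S) (hSS' : S ≤ S') (hTT' : T ≤ T') (hTS' : T' ≤ S')
    (h0 : ∀ n, Subsingleton (H S' S n)) (h1 : ∀ n, Subsingleton (H T' T n)) (n : ℕ) :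
    Function.Bijective (Hinc hSS' hTT' n : H S T n →ₗ[k] H S' T' n) := by
  have e1 := Hinc_bijective_of_top hTS hSS' h0 n
  have e2 := Hinc_bijective_of_bot hTT' hTS' h1 n
  have := e2.comp e1
  convert this using 1
  funext x
  exact (Hinc_comp hSS' le_rfl le_rfl hTT' x).symm

end Compare

section MV

variable {S₁ S₂ T₁ T₂ : Sub C}

/-- The second isomorphism theorem: `H(S₁ / (S₁ ⊓ S₂)) → H((S₁ ⊔ S₂) / S₂)` is bijective. -/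
theorem Hinc_second_iso (S₁ S₂ : Sub C) (n : ℕ) :
    Function.Bijective (Hinc le_sup_left inf_le_right n :
      H S₁ (S₁ ⊓ S₂) n →ₗ[k] H (S₁ ⊔ S₂) S₂ n) := by
  refine Hmap_bijective (IsMor.id_of_le le_sup_left inf_le_right) (fun hx hx' => ⟨hx, hx'⟩)
    (fun {n y} hy => ?_)
  obtain ⟨a, ha, b, hb, rfl⟩ := Submodule.mem_sup.1 hy
  exact ⟨a, ha, by simpa using hb⟩

/-- The connecting homomorphism on cocycles: well defined. -/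
theorem mv_mem {n : ℕ} (h₁ : T₁ ≤ S₁) (h₂ : T₂ ≤ S₂) {y₁ y₂ : C.K n} {t₁ t₂ : C.K (n + 1)}
    (hy₁ : y₁ ∈ S₁ n) (hy₂ : y₂ ∈ S₂ n) (ht₁ : t₁ ∈ T₁ (n + 1)) (ht₂ : t₂ ∈ T₂ (n + 1))
    (h : C.d n (y₁ + y₂) = t₁ + t₂) :
    C.d n y₁ - t₁ ∈ Zc (S₁ ⊓ S₂) (T₁ ⊓ T₂) (n + 1) := by
  have e : C.d n y₁ - t₁ = t₂ - C.d n y₂ := by
    rw [map_add] at h
    rw [sub_eq_sub_iff_add_eq_add, h, add_comm t₁ t₂]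
  refine ⟨⟨Submodule.sub_mem _ (S₁.d_mem hy₁) (h₁ _ ht₁), ?_⟩, ?_, ?_⟩
  · rw [e]
    exact Submodule.sub_mem _ (h₂ _ ht₂) (S₂.d_mem hy₂)
  · rw [map_sub, C.d_d, zero_sub]
    exact Submodule.neg_mem _ (T₁.d_mem ht₁)
  · change C.d (n + 1) (C.d n y₁ - t₁) ∈ T₂ (n + 2)
    rw [e, map_sub, C.d_d, sub_zero]
    exact T₂.d_mem ht₂

/-- Two choices in the definition of the connecting homomorphism. -/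
theorem mv_unique {n : ℕ} {S₁' S₂' T₁' T₂' : Sub C} {y₁ y₂ z₁ z₂ : C.K n}
    {t₁ t₂ v₁ v₂ : C.K (n + 1)}
    (hy₁ : y₁ ∈ S₁' n) (hy₂ : y₂ ∈ S₂' n) (ht₁ : t₁ ∈ T₁' (n + 1)) (ht₂ : t₂ ∈ T₂' (n + 1))
    (h : C.d n (y₁ + y₂) = t₁ + t₂)
    (hz₁ : z₁ ∈ S₁' n) (hz₂ : z₂ ∈ S₂' n) (hv₁ : v₁ ∈ T₁' (n + 1)) (hv₂ : v₂ ∈ T₂' (n + 1))
    (h' : C.d n (z₁ + z₂) = v₁ + v₂)
    (hB : y₁ + y₂ - (z₁ + z₂) ∈ Bc (S₁' ⊔ S₂') (T₁' ⊔ T₂') n) (hT₁ : T₁' ≤ S₁')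
    (hT₂ : T₂' ≤ S₂') :
    (C.d n y₁ - t₁) - (C.d n z₁ - v₁) ∈ Bc (S₁' ⊓ S₂') (T₁' ⊓ T₂') (n + 1) := by
  obtain ⟨t, ht, w, hw, htw⟩ := mem_Bc.1 hB
  obtain ⟨a₁, ha₁, a₂, ha₂, rfl⟩ := Submodule.mem_sup.1 ht
  obtain ⟨b₁, hb₁, b₂, hb₂, hb⟩ : ∃ b₁, b₁ ∈ im S₁' n ∧ ∃ b₂, b₂ ∈ im S₂' n ∧ b₁ + b₂ = w := by
    cases n with
    | zero =>
      rw [mem_im_zero] at hw
      exact ⟨0, Submodule.zero_mem _, 0, Submodule.zero_mem _, by rw [hw, add_zero]⟩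
    | succ n =>
      obtain ⟨y, hy, rfl⟩ := mem_im_succ.1 hw
      obtain ⟨c₁, hc₁, c₂, hc₂, rfl⟩ := Submodule.mem_sup.1 hy
      exact ⟨_, mem_im_succ.2 ⟨c₁, hc₁, rfl⟩, _, mem_im_succ.2 ⟨c₂, hc₂, rfl⟩,
        (map_add _ _ _).symm⟩
  -- the element `s = y₁ - z₁ - a₁ - b₁`
  have e1 : y₁ - z₁ - a₁ - b₁ = -(y₂ - z₂ - a₂ - b₂) := by
    rw [← hb] at htw
    have : (y₁ - z₁ - a₁ - b₁) + (y₂ - z₂ - a₂ - b₂) = 0 := by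
      have : y₁ + y₂ - (z₁ + z₂) - (a₁ + a₂ + (b₁ + b₂)) = 0 := by rw [htw, sub_self]
      rw [← this]
      abel
    exact eq_neg_of_add_eq_zero_left this
  have hs : y₁ - z₁ - a₁ - b₁ ∈ (S₁' ⊓ S₂') n := by
    constructor
    · exact Submodule.sub_mem _ (Submodule.sub_mem _ (Submodule.sub_mem _ hy₁ hz₁) (hT₁ _ ha₁))
        (im_le _ _ hb₁)
    · rw [SetLike.mem_coe, e1]
      exact Submodule.neg_mem _ (Submodule.sub_mem _ (Submodule.sub_mem _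
        (Submodule.sub_mem _ hy₂ hz₂) (hT₂ _ ha₂)) (im_le _ _ hb₂))
  have e2 : (C.d n y₁ - t₁) - (C.d n z₁ - v₁) - C.d n (y₁ - z₁ - a₁ - b₁) =
      C.d n a₁ - t₁ + v₁ := by
    rw [map_sub, map_sub, map_sub, d_im hb₁]
    abel
  have e3 : C.d n a₁ - t₁ + v₁ = -(C.d n a₂ - t₂ + v₂) := by
    have : (C.d n a₁ - t₁ + v₁) + (C.d n a₂ - t₂ + v₂) = 0 := by
      have h3 : C.d n (y₁ + y₂ - (z₁ + z₂)) = C.d n (a₁ + a₂ + (b₁ + b₂)) := by rw [hb, htw]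
      rw [map_sub, h, h', map_add, map_add, map_add, d_im hb₁, d_im hb₂] at h3
      have h4 : C.d n a₁ + C.d n a₂ = t₁ + t₂ - (v₁ + v₂) := by
        rw [h3]; abel
      have : (C.d n a₁ - t₁ + v₁) + (C.d n a₂ - t₂ + v₂) =
        (C.d n a₁ + C.d n a₂) - (t₁ + t₂ - (v₁ + v₂)) := by abel
      rw [this, h4, sub_self]
    exact eq_neg_of_add_eq_zero_left this
  rw [mem_Bc_succ]
  refine ⟨_, hs, ?_⟩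
  rw [e2]
  constructor
  · exact Submodule.add_mem _ (Submodule.sub_mem _ (T₁'.d_mem ha₁) ht₁) hv₁
  · rw [SetLike.mem_coe, e3]
    exact Submodule.neg_mem _ (Submodule.add_mem _ (Submodule.sub_mem _ (T₂'.d_mem ha₂) ht₂) hv₂)

/-- Every class of `H(⊔)` has a representative with all the data. -/
theorem exists_mv_data {n : ℕ} (c : H (S₁ ⊔ S₂) (T₁ ⊔ T₂) n) :
    ∃ (w : C.K n) (hw : w ∈ Zc (S₁ ⊔ S₂) (T₁ ⊔ T₂) n) (y₁ y₂ : C.K n) (t₁ t₂ : C.K (n + 1)),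
      H.mk w hw = c ∧ y₁ ∈ S₁ n ∧ y₂ ∈ S₂ n ∧ y₁ + y₂ = w ∧ t₁ ∈ T₁ (n + 1) ∧ t₂ ∈ T₂ (n + 1) ∧
      C.d n w = t₁ + t₂ := by
  obtain ⟨w, hw, rfl⟩ := H.exists_mk c
  obtain ⟨y₁, hy₁, y₂, hy₂, hy⟩ := Submodule.mem_sup.1 hw.1
  obtain ⟨t₁, ht₁, t₂, ht₂, ht⟩ := Submodule.mem_sup.1 hw.2
  exact ⟨w, hw, y₁, y₂, t₁, t₂, rfl, hy₁, hy₂, hy, ht₁, ht₂, ht.symm⟩

/-- The value of the connecting homomorphism. -/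
theorem exists_mvDel (h₁ : T₁ ≤ S₁) (h₂ : T₂ ≤ S₂) {n : ℕ} (c : H (S₁ ⊔ S₂) (T₁ ⊔ T₂) n) :
    ∃ e : H (S₁ ⊓ S₂) (T₁ ⊓ T₂) (n + 1), ∀ (w : C.K n) (hw : w ∈ Zc (S₁ ⊔ S₂) (T₁ ⊔ T₂) n)
      (y₁ y₂ : C.K n) (t₁ t₂ : C.K (n + 1)) (_ : H.mk w hw = c) (hy₁ : y₁ ∈ S₁ n)
      (hy₂ : y₂ ∈ S₂ n) (hy : y₁ + y₂ = w) (ht₁ : t₁ ∈ T₁ (n + 1)) (ht₂ : t₂ ∈ T₂ (n + 1))
      (h : C.d n w = t₁ + t₂), e = H.mk (C.d n y₁ - t₁)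
        (mv_mem h₁ h₂ hy₁ hy₂ ht₁ ht₂ (by rw [hy, h])) := by
  obtain ⟨w, hw, y₁, y₂, t₁, t₂, hc, hy₁, hy₂, hy, ht₁, ht₂, h⟩ := exists_mv_data c
  refine ⟨H.mk (C.d n y₁ - t₁) (mv_mem h₁ h₂ hy₁ hy₂ ht₁ ht₂ (by rw [hy, h])), ?_⟩
  intro w' hw' y₁' y₂' t₁' t₂' hc' hy₁' hy₂' hy' ht₁' ht₂' h'
  rw [H.mk_eq_mk]
  refine mv_unique (S₁' := S₁) (S₂' := S₂) (T₁' := T₁) (T₂' := T₂) hy₁ hy₂ ht₁ ht₂
    (by rw [hy, h]) hy₁' hy₂' ht₁' ht₂' (by rw [hy', h']) ?_ h₁ h₂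
  rw [hy, hy', ← H.mk_eq_mk (hx := hw) (hy := hw'), hc, hc']

/-- The connecting homomorphism of Mayer-Vietoris. -/
noncomputable def mvDel (h₁ : T₁ ≤ S₁) (h₂ : T₂ ≤ S₂) (n : ℕ) :
    H (S₁ ⊔ S₂) (T₁ ⊔ T₂) n →ₗ[k] H (S₁ ⊓ S₂) (T₁ ⊓ T₂) (n + 1) where
  toFun c := (exists_mvDel h₁ h₂ c).choose
  map_add' c c' := by
    obtain ⟨w, hw, y₁, y₂, t₁, t₂, hc, hy₁, hy₂, hy, ht₁, ht₂, h⟩ := exists_mv_data c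
    obtain ⟨w', hw', y₁', y₂', t₁', t₂', hc', hy₁', hy₂', hy', ht₁', ht₂', h'⟩ :=
      exists_mv_data c'
    rw [(exists_mvDel h₁ h₂ c).choose_spec w hw y₁ y₂ t₁ t₂ hc hy₁ hy₂ hy ht₁ ht₂ h,
      (exists_mvDel h₁ h₂ c').choose_spec w' hw' y₁' y₂' t₁' t₂' hc' hy₁' hy₂' hy' ht₁' ht₂' h',
      (exists_mvDel h₁ h₂ (c + c')).choose_spec (w + w') (Submodule.add_mem _ hw hw')
        (y₁ + y₁') (y₂ + y₂') (t₁ + t₁') (t₂ + t₂') (by rw [← hc, ← hc', H.mk_add])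
        (Submodule.add_mem _ hy₁ hy₁') (Submodule.add_mem _ hy₂ hy₂')
        (by rw [← hy, ← hy']; abel) (Submodule.add_mem _ ht₁ ht₁')
        (Submodule.add_mem _ ht₂ ht₂') (by rw [map_add, h, h']; abel), ← H.mk_add, H.mk_eq_mk]
    have : C.d n (y₁ + y₁') - (t₁ + t₁') - (C.d n y₁ - t₁ + (C.d n y₁' - t₁')) = 0 := by
      rw [map_add]; abel
    rw [this]
    exact Submodule.zero_mem _
  map_smul' r c := by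
    obtain ⟨w, hw, y₁, y₂, t₁, t₂, hc, hy₁, hy₂, hy, ht₁, ht₂, h⟩ := exists_mv_data c
    rw [(exists_mvDel h₁ h₂ c).choose_spec w hw y₁ y₂ t₁ t₂ hc hy₁ hy₂ hy ht₁ ht₂ h,
      (exists_mvDel h₁ h₂ (r • c)).choose_spec (r • w) (Submodule.smul_mem _ r hw)
        (r • y₁) (r • y₂) (r • t₁) (r • t₂) (by rw [← hc, H.mk_smul])
        (Submodule.smul_mem _ r hy₁) (Submodule.smul_mem _ r hy₂)
        (by rw [← hy, smul_add]) (Submodule.smul_mem _ r ht₁)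
        (Submodule.smul_mem _ r ht₂) (by rw [map_smul, h, smul_add]), RingHom.id_apply,
      ← H.mk_smul, H.mk_eq_mk]
    have : C.d n (r • y₁) - r • t₁ - r • (C.d n y₁ - t₁) = 0 := by
      rw [map_smul, smul_sub, sub_self]
    rw [this]
    exact Submodule.zero_mem _

theorem mvDel_mk (h₁ : T₁ ≤ S₁) (h₂ : T₂ ≤ S₂) {n : ℕ} {w : C.K n}
    (hw : w ∈ Zc (S₁ ⊔ S₂) (T₁ ⊔ T₂) n) {y₁ y₂ : C.K n} {t₁ t₂ : C.K (n + 1)}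
    (hy₁ : y₁ ∈ S₁ n) (hy₂ : y₂ ∈ S₂ n) (hy : y₁ + y₂ = w)
    (ht₁ : t₁ ∈ T₁ (n + 1)) (ht₂ : t₂ ∈ T₂ (n + 1)) (h : C.d n w = t₁ + t₂) :
    mvDel h₁ h₂ n (H.mk w hw) =
      H.mk (C.d n y₁ - t₁) (mv_mem h₁ h₂ hy₁ hy₂ ht₁ ht₂ (by rw [hy, h])) :=
  (exists_mvDel h₁ h₂ (H.mk w hw)).choose_spec w hw y₁ y₂ t₁ t₂ rfl hy₁ hy₂ hy ht₁ ht₂ h

/-- Naturality of the connecting homomorphism. -/
theorem mvDel_natural {S₁' S₂' T₁' T₂' : Sub C} (h₁ : T₁ ≤ S₁) (h₂ : T₂ ≤ S₂) (h₁' : T₁' ≤ S₁')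
    (h₂' : T₂' ≤ S₂') (i₁ : S₁ ≤ S₁') (i₂ : S₂ ≤ S₂') (j₁ : T₁ ≤ T₁') (j₂ : T₂ ≤ T₂') {n : ℕ}
    (c : H (S₁ ⊔ S₂) (T₁ ⊔ T₂) n) :
    mvDel h₁' h₂' n (Hinc (sup_le_sup i₁ i₂) (sup_le_sup j₁ j₂) n c) =
      Hinc (inf_le_inf i₁ i₂) (inf_le_inf j₁ j₂) (n + 1) (mvDel h₁ h₂ n c) := by
  obtain ⟨w, hw, y₁, y₂, t₁, t₂, rfl, hy₁, hy₂, hy, ht₁, ht₂, ht⟩ := exists_mv_data c
  rw [Hinc_mk, mvDel_mk h₁ h₂ hw hy₁ hy₂ hy ht₁ ht₂ ht, Hinc_mk,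
    mvDel_mk h₁' h₂' _ (i₁ _ hy₁) (i₂ _ hy₂) hy (j₁ _ ht₁) (j₂ _ ht₂) ht]

/-- Naturality of the connecting homomorphism, for a morphism. -/
theorem mvDel_map {C' : Amb k} {S₁' S₂' T₁' T₂' : Sub C'} {φ : ∀ n, C.K n →ₗ[k] C'.K n}
    (h₁ : T₁ ≤ S₁) (h₂ : T₂ ≤ S₂) (h₁' : T₁' ≤ S₁') (h₂' : T₂' ≤ S₂')
    (m₁ : ∀ {n x}, x ∈ S₁ n → φ n x ∈ S₁' n) (m₂ : ∀ {n x}, x ∈ S₂ n → φ n x ∈ S₂' n)
    (l₁ : ∀ {n x}, x ∈ T₁ n → φ n x ∈ T₁' n) (l₂ : ∀ {n x}, x ∈ T₂ n → φ n x ∈ T₂' n)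
    (hc : ∀ n x, C'.d n (φ n x) = φ (n + 1) (C.d n x))
    (hs : IsMor (S₁ ⊔ S₂) (T₁ ⊔ T₂) (S₁' ⊔ S₂') (T₁' ⊔ T₂') φ)
    (hi : IsMor (S₁ ⊓ S₂) (T₁ ⊓ T₂) (S₁' ⊓ S₂') (T₁' ⊓ T₂') φ) {n : ℕ}
    (c : H (S₁ ⊔ S₂) (T₁ ⊔ T₂) n) :
    mvDel h₁' h₂' n (Hmap hs n c) = Hmap hi (n + 1) (mvDel h₁ h₂ n c) := by
  obtain ⟨w, hw, y₁, y₂, t₁, t₂, rfl, hy₁, hy₂, hy, ht₁, ht₂, ht⟩ := exists_mv_data c
  rw [Hmap_mk, mvDel_mk h₁ h₂ hw hy₁ hy₂ hy ht₁ ht₂ ht, Hmap_mk,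
    mvDel_mk h₁' h₂' _ (m₁ hy₁) (m₂ hy₂) (by rw [← map_add, hy]) (l₁ ht₁) (l₂ ht₂)
      (by rw [hc, ht, map_add]), H.mk_eq_mk, map_sub, hc, sub_self]
  exact Submodule.zero_mem _

/-- Exactness at `H(⊓)`: a class which vanishes in both `H(Sᵢ / Tᵢ)` comes from `H(⊔)`. -/
theorem mv_exact_inf (h₁ : T₁ ≤ S₁) (h₂ : T₂ ≤ S₂) {n : ℕ}
    (c : H (S₁ ⊓ S₂) (T₁ ⊓ T₂) (n + 1))
    (hc₁ : Hinc (inf_le_left : S₁ ⊓ S₂ ≤ S₁) (inf_le_left : T₁ ⊓ T₂ ≤ T₁) (n + 1) c = 0)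
    (hc₂ : Hinc (inf_le_right : S₁ ⊓ S₂ ≤ S₂) (inf_le_right : T₁ ⊓ T₂ ≤ T₂) (n + 1) c = 0) :
    ∃ w, mvDel h₁ h₂ n w = c := by
  obtain ⟨x, hx, rfl⟩ := H.exists_mk c
  rw [Hinc_mk, H.mk_eq_zero, mem_Bc_succ] at hc₁ hc₂
  obtain ⟨y₁, hy₁, h3⟩ := hc₁
  obtain ⟨y₂, hy₂, h4⟩ := hc₂
  have hd : C.d n (y₁ + -y₂) = -(x - C.d n y₁) + (x - C.d n y₂) := by
    rw [map_add, map_neg]; abel
  have hw : y₁ + -y₂ ∈ Zc (S₁ ⊔ S₂) (T₁ ⊔ T₂) n := by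
    refine ⟨Submodule.add_mem_sup hy₁ (Submodule.neg_mem _ hy₂), ?_⟩
    change C.d n (y₁ + -y₂) ∈ (T₁ ⊔ T₂) (n + 1)
    rw [hd]
    exact Submodule.add_mem_sup (Submodule.neg_mem (T₁ (n + 1)) h3) h4
  refine ⟨H.mk _ hw, ?_⟩
  rw [mvDel_mk h₁ h₂ hw hy₁ (Submodule.neg_mem _ hy₂) rfl (Submodule.neg_mem _ h3) h4 hd,
    H.mk_eq_mk]
  have : C.d n y₁ - -(x - C.d n y₁) - x = 0 := by abel
  rw [this]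
  exact Submodule.zero_mem _

/-- In degree zero the map `H(⊓) → H(S₁ / T₁) ⊕ H(S₂ / T₂)` is injective. -/
theorem mv_zero_injective (c : H (S₁ ⊓ S₂) (T₁ ⊓ T₂) 0)
    (hc₁ : Hinc (inf_le_left : S₁ ⊓ S₂ ≤ S₁) (inf_le_left : T₁ ⊓ T₂ ≤ T₁) 0 c = 0)
    (hc₂ : Hinc (inf_le_right : S₁ ⊓ S₂ ≤ S₂) (inf_le_right : T₁ ⊓ T₂ ≤ T₂) 0 c = 0) :
    c = 0 := by
  obtain ⟨x, hx, rfl⟩ := H.exists_mk c
  rw [Hinc_mk, H.mk_eq_zero, mem_Bc_zero] at hc₁ hc₂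
  rw [H.mk_eq_zero, mem_Bc_zero]
  exact ⟨hc₁, hc₂⟩

/-- Exactness: the connecting homomorphism followed by the restrictions is zero. -/
theorem mv_del_left (h₁ : T₁ ≤ S₁) (h₂ : T₂ ≤ S₂) {n : ℕ} (w : H (S₁ ⊔ S₂) (T₁ ⊔ T₂) n) :
    Hinc (inf_le_left : S₁ ⊓ S₂ ≤ S₁) (inf_le_left : T₁ ⊓ T₂ ≤ T₁) (n + 1)
      (mvDel h₁ h₂ n w) = 0 := by
  obtain ⟨w, hw, y₁, y₂, t₁, t₂, rfl, hy₁, hy₂, hy, ht₁, ht₂, ht⟩ := exists_mv_data w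
  rw [mvDel_mk h₁ h₂ hw hy₁ hy₂ hy ht₁ ht₂ ht, Hinc_mk, H.mk_eq_zero, mem_Bc_succ]
  exact ⟨y₁, hy₁, by
    rw [sub_sub_cancel_left]
    exact Submodule.neg_mem _ ht₁⟩

theorem mv_del_right (h₁ : T₁ ≤ S₁) (h₂ : T₂ ≤ S₂) {n : ℕ} (w : H (S₁ ⊔ S₂) (T₁ ⊔ T₂) n) :
    Hinc (inf_le_right : S₁ ⊓ S₂ ≤ S₂) (inf_le_right : T₁ ⊓ T₂ ≤ T₂) (n + 1)
      (mvDel h₁ h₂ n w) = 0 := by
  obtain ⟨w, hw, y₁, y₂, t₁, t₂, rfl, hy₁, hy₂, hy, ht₁, ht₂, ht⟩ := exists_mv_data w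
  rw [mvDel_mk h₁ h₂ hw hy₁ hy₂ hy ht₁ ht₂ ht, Hinc_mk, H.mk_eq_zero, mem_Bc_succ]
  refine ⟨-y₂, Submodule.neg_mem _ hy₂, ?_⟩
  have : C.d n y₁ - t₁ - C.d n (-y₂) = t₂ := by
    rw [← hy, map_add] at ht
    have h3 : C.d n y₁ = t₁ + t₂ - C.d n y₂ := eq_sub_of_add_eq ht
    rw [map_neg, h3]
    abel
  rw [this]
  exact ht₂

/-- Exactness in the middle. -/
theorem mv_exact_mid {n : ℕ} (a : H S₁ T₁ n) (b : H S₂ T₂ n)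
    (hab : Hinc (le_sup_left : S₁ ≤ S₁ ⊔ S₂) (le_sup_left : T₁ ≤ T₁ ⊔ T₂) n a =
      Hinc (le_sup_right : S₂ ≤ S₁ ⊔ S₂) (le_sup_right : T₂ ≤ T₁ ⊔ T₂) n b)
    (h₁ : T₁ ≤ S₁) (h₂ : T₂ ≤ S₂) :
    ∃ c : H (S₁ ⊓ S₂) (T₁ ⊓ T₂) n,
      Hinc (inf_le_left : S₁ ⊓ S₂ ≤ S₁) (inf_le_left : T₁ ⊓ T₂ ≤ T₁) n c = a ∧
      Hinc (inf_le_right : S₁ ⊓ S₂ ≤ S₂) (inf_le_right : T₁ ⊓ T₂ ≤ T₂) n c = b := by
  obtain ⟨x, hx, rfl⟩ := H.exists_mk a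
  obtain ⟨y, hy, rfl⟩ := H.exists_mk b
  rw [Hinc_mk, Hinc_mk, H.mk_eq_mk] at hab
  obtain ⟨t, ht, w, hw, htw⟩ := mem_Bc.1 hab
  obtain ⟨t₁, ht₁, t₂, ht₂, rfl⟩ := Submodule.mem_sup.1 ht
  obtain ⟨b₁, hb₁, b₂, hb₂, hb⟩ : ∃ b₁, b₁ ∈ im S₁ n ∧ ∃ b₂, b₂ ∈ im S₂ n ∧ b₁ + b₂ = w := by
    cases n with
    | zero =>
      rw [mem_im_zero] at hw
      exact ⟨0, Submodule.zero_mem _, 0, Submodule.zero_mem _, by rw [hw, add_zero]⟩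
    | succ n =>
      obtain ⟨y, hy, rfl⟩ := mem_im_succ.1 hw
      obtain ⟨c₁, hc₁, c₂, hc₂, rfl⟩ := Submodule.mem_sup.1 hy
      exact ⟨_, mem_im_succ.2 ⟨c₁, hc₁, rfl⟩, _, mem_im_succ.2 ⟨c₂, hc₂, rfl⟩,
        (map_add _ _ _).symm⟩
  have e1 : x - t₁ - b₁ = y + t₂ + b₂ := by
    have h3 : x = y + (t₁ + t₂ + (b₁ + b₂)) := by rw [hb, htw]; abel
    rw [h3]; abel
  have hm : x - t₁ - b₁ ∈ (S₁ ⊓ S₂) n := by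
    constructor
    · exact Submodule.sub_mem _ (Submodule.sub_mem _ hx.1 (h₁ _ ht₁)) (im_le _ _ hb₁)
    · rw [SetLike.mem_coe, e1]
      exact Submodule.add_mem _ (Submodule.add_mem _ hy.1 (h₂ _ ht₂)) (im_le _ _ hb₂)
  have hz : x - t₁ - b₁ ∈ Zc (S₁ ⊓ S₂) (T₁ ⊓ T₂) n := by
    refine ⟨hm, ?_, ?_⟩
    · rw [map_sub, map_sub, d_im hb₁, sub_zero]
      exact Submodule.sub_mem _ hx.2 (T₁.d_mem ht₁)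
    · change C.d n (x - t₁ - b₁) ∈ T₂ (n + 1)
      rw [e1, map_add, map_add, d_im hb₂, add_zero]
      exact Submodule.add_mem _ hy.2 (T₂.d_mem ht₂)
  refine ⟨H.mk _ hz, ?_, ?_⟩
  · rw [Hinc_mk, H.mk_eq_mk]
    have : x - t₁ - b₁ - x = -t₁ + -b₁ := by abel
    rw [this]
    exact Submodule.add_mem _ (T_le_Bc _ _ _ (Submodule.neg_mem _ ht₁))
      (im_le_Bc _ _ _ (Submodule.neg_mem _ hb₁))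
  · rw [Hinc_mk, H.mk_eq_mk, e1]
    have : y + t₂ + b₂ - y = t₂ + b₂ := by abel
    rw [this]
    exact Submodule.add_mem _ (T_le_Bc _ _ _ ht₂) (im_le_Bc _ _ _ hb₂)

/-- Exactness at `H(⊔)`: the kernel of the connecting homomorphism. -/
theorem mv_exact_sup (h₁ : T₁ ≤ S₁) (h₂ : T₂ ≤ S₂) {n : ℕ} (c : H (S₁ ⊔ S₂) (T₁ ⊔ T₂) n)
    (hc : mvDel h₁ h₂ n c = 0) : ∃ (a : H S₁ T₁ n) (b : H S₂ T₂ n),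
      Hinc (le_sup_left : S₁ ≤ S₁ ⊔ S₂) (le_sup_left : T₁ ≤ T₁ ⊔ T₂) n a +
      Hinc (le_sup_right : S₂ ≤ S₁ ⊔ S₂) (le_sup_right : T₂ ≤ T₁ ⊔ T₂) n b = c := by
  obtain ⟨w, hw, y₁, y₂, t₁, t₂, rfl, hy₁, hy₂, hy, ht₁, ht₂, ht⟩ := exists_mv_data c
  rw [mvDel_mk h₁ h₂ hw hy₁ hy₂ hy ht₁ ht₂ ht, H.mk_eq_zero, mem_Bc_succ] at hc
  obtain ⟨s, hs, h3⟩ := hc
  have e1 : C.d n (y₁ - s) = (C.d n y₁ - t₁ - C.d n s) + t₁ := by rw [map_sub]; abel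
  have hd : C.d n y₁ + C.d n y₂ = t₁ + t₂ := by rw [← map_add, hy, ht]
  have e2 : C.d n (y₂ + s) = t₂ - (C.d n y₁ - t₁ - C.d n s) := by
    rw [map_add]
    have : C.d n y₂ = t₁ + t₂ - C.d n y₁ := by rw [← hd]; abel
    rw [this]; abel
  have hz₁ : y₁ - s ∈ Zc S₁ T₁ n := ⟨Submodule.sub_mem _ hy₁ hs.1, by
    change C.d n (y₁ - s) ∈ T₁ (n + 1)
    rw [e1]
    exact Submodule.add_mem _ h3.1 ht₁⟩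
  have hz₂ : y₂ + s ∈ Zc S₂ T₂ n := ⟨Submodule.add_mem _ hy₂ hs.2, by
    change C.d n (y₂ + s) ∈ T₂ (n + 1)
    rw [e2]
    exact Submodule.sub_mem _ ht₂ h3.2⟩
  refine ⟨H.mk _ hz₁, H.mk _ hz₂, ?_⟩
  rw [Hinc_mk, Hinc_mk, ← H.mk_add, H.mk_eq_mk]
  have : y₁ - s + (y₂ + s) - w = 0 := by rw [← hy]; abel
  rw [this]
  exact Submodule.zero_mem _

end MV

end Vale.Agent.P216R.AS
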