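import Vale.Agent.P216.Rg.Htpy
import Vale.Agent.P216.Rg.MV140

/-!
Tautness and exact Mayer-Vietoris for compact sets.
* `taut` : `H (Zr X A) (Zn X A) = 0` for `A` compact (T1);
* `mv_acyclic` : `H (Zr X A ⊓ Zr X B) (Zr X (A ∪ B)) = 0` for `A`, `B` compact (T2);
* `Zr_sup` : `Zr X A ⊔ Zr X B = Zr X (A ∩ B)`;
* `exists_nhd` : cochains of `Zn X A` vanish on the small tuples of a neighbourhood of `A` (T3).
-/

open Set Matrix

namespace Vale.Agent.P216R.AS

variable {E : Type} {k : Type} [CommRing k] {I : Type}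

/-! ### Averaging -/

/-- The symmetries consist of at most one involution, with character `±1`, and `2` is
invertible if there is one (nothing is asked of the ring if `I` is empty). -/
structure Tw [PseudoMetricSpace E] (a : I → E → E) (χ : I → k) (X : Set E) : Prop where
  two : ∀ _ : I, IsUnit (2 : k)
  uniq : ∀ i j : I, i = j
  inv : ∀ i, ∀ x ∈ X, a i (a i x) = x
  sq : ∀ i, χ i * χ i = 1
  uc : ∀ i, ∀ ε > 0, ∃ δ > 0, ∀ x ∈ X, ∀ y ∈ X, dist x y < δ → dist (a i x) (a i y) < ε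

open Classical in
/-- The averaging operator. -/
noncomputable def av (a : I → E → E) (χ : I → k) (n : ℕ) :
    ((Fin n → E) → k) →ₗ[k] ((Fin n → E) → k) :=
  if h : Nonempty I then Ring.inverse (2 : k) • (LinearMap.id + χ h.some • P265.AS.pb (a h.some))
  else LinearMap.id

theorem av_of_isEmpty [IsEmpty I] (a : I → E → E) (χ : I → k) {n : ℕ} (f : (Fin n → E) → k) :
    av a χ n f = f := by
  rw [av, dif_neg (not_nonempty_iff.2 inferInstance)]
  rfl

theorem av_apply {a : I → E → E} {χ : I → k} (hu : ∀ i j : I, i = j) (i : I) {n : ℕ}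
    (f : (Fin n → E) → k) (x : Fin n → E) :
    av a χ n f x = Ring.inverse (2 : k) * (f x + χ i * f (a i ∘ x)) := by
  have h : Nonempty I := ⟨i⟩
  rw [av, dif_pos h, hu h.some i]
  rfl

theorem d_av (a : I → E → E) (χ : I → k) {n : ℕ} (f : (Fin n → E) → k) :
    P265.AS.d (av a χ n f) = av a χ (n + 1) (P265.AS.d f) := by
  unfold av
  split_ifs with h
  · change P265.AS.d (Ring.inverse (2 : k) • (f + χ h.some • P265.AS.pb (a h.some) f)) = _
    rw [P265.AS.d_smul, P265.AS.d_add, P265.AS.d_smul, P265.AS.d_pb]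
    rfl
  · rfl

section

variable [PseudoMetricSpace E] {a : I → E → E} {χ : I → k} {X A B : Set E}

theorem Tw.mono (h : Tw a χ X) (hA : A ⊆ X) : Tw a χ A where
  two := h.two
  uniq := h.uniq
  inv i x hx := h.inv i x (hA hx)
  sq := h.sq
  uc i ε hε := by
    obtain ⟨δ, hδ, h'⟩ := h.uc i ε hε
    exact ⟨δ, hδ, fun x hx y hy => h' x (hA hx) y (hA hy)⟩

theorem Tw.of_isEmpty [IsEmpty I] : Tw a χ X where
  two i := isEmptyElim i
  uniq i := isEmptyElim i
  inv i := isEmptyElim i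
  sq i := isEmptyElim i
  uc i := isEmptyElim i

theorem av_eqv (h : Tw a χ X) (hX : Inv a X) {n : ℕ} (f : (Fin n → E) → k) :
    Eqv a χ X (av a χ n f) := by
  intro i x hx
  rw [av_apply h.uniq i, av_apply h.uniq i]
  rw [show a i ∘ a i ∘ x = x from funext fun j => h.inv i _ (hx j)]
  linear_combination (-Ring.inverse (2 : k) * f (a i ∘ x)) * h.sq i

theorem av_eq (h : Tw a χ X) {n : ℕ} {f : (Fin n → E) → k} (hf : Eqv a χ X f)
    {x : Fin n → E} (hx : ∀ j, x j ∈ X) : av a χ n f x = f x := by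
  rcases isEmpty_or_nonempty I with hI | ⟨⟨i⟩⟩
  · rw [av_of_isEmpty]
  · rw [av_apply h.uniq i, hf i x hx, ← mul_assoc (χ i), h.sq i, one_mul, ← two_mul,
      ← mul_assoc, Ring.inverse_mul_cancel _ (h.two i), one_mul]

theorem av_van (h : Tw a χ A) (hA : Inv a A) {n : ℕ} {f : (Fin n → E) → k} (hf : Van A f) :
    Van A (av a χ n f) := by
  rcases isEmpty_or_nonempty I with hI | ⟨⟨i⟩⟩
  · rwa [av_of_isEmpty]
  · obtain ⟨ε, hε, h1⟩ := hf
    obtain ⟨δ, hδ, h2⟩ := h.uc i ε hε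
    refine ⟨min ε δ, lt_min hε hδ, fun x hx => ?_⟩
    rw [av_apply h.uniq i, h1 x (hx.mono le_rfl (min_le_left _ _)), h1 (a i ∘ x), mul_zero,
      add_zero, mul_zero]
    exact ⟨fun j => (hA i _).2 (hx.1 j), fun j l =>
      h2 _ (hx.1 j) _ (hx.1 l) ((hx.2 j l).trans_le (min_le_right _ _))⟩

theorem av_vanN (h : Tw a χ X) (hX : Inv a X) (hA : Inv a A) (hAX : A ⊆ X) {n : ℕ}
    {f : (Fin n → E) → k} (hf : VanN X A f) : VanN X A (av a χ n f) := by
  rcases isEmpty_or_nonempty I with hI | ⟨⟨i⟩⟩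
  · rwa [av_of_isEmpty]
  · obtain ⟨ε, hε, h1⟩ := hf
    obtain ⟨δ, hδ, h2⟩ := h.uc i ε hε
    refine ⟨min ε δ, lt_min hε hδ, fun x hx => ?_⟩
    rw [av_apply h.uniq i, h1 x (hx.mono le_rfl le_rfl (min_le_left _ _)), h1 (a i ∘ x),
      mul_zero, add_zero, mul_zero]
    refine ⟨⟨fun j => (hX i _).2 (hx.1.1 j), fun j l =>
      h2 _ (hx.1.1 j) _ (hx.1.1 l) ((hx.1.2 j l).trans_le (min_le_right _ _))⟩, fun j => ?_⟩
    obtain ⟨y, hy, hxy⟩ := hx.2 j
    exact ⟨a i y, (hA i _).2 hy, h2 _ (hx.1.1 j) _ (hAX hy) (hxy.trans_le (min_le_right _ _))⟩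

/-! ### The nearest point -/

open Classical in
/-- A nearest point of `x` in `C` if it is at distance `< r`, the point `x` itself otherwise. -/
noncomputable def near (C : Set E) (r : ℝ) (x : E) : E :=
  if h : ∃ y ∈ C, dist x y < r ∧ ∀ z ∈ C, dist x y ≤ dist x z then h.choose else x

theorem near_spec {C : Set E} (hC : IsCompact C) {r : ℝ} {x z : E} (hz : z ∈ C)
    (hxz : dist x z < r) : near C r x ∈ C ∧ dist x (near C r x) ≤ dist x z := by
  have h : ∃ y ∈ C, dist x y < r ∧ ∀ z ∈ C, dist x y ≤ dist x z := by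
    obtain ⟨y, hy, hmin⟩ := hC.exists_isMinOn ⟨z, hz⟩
      (continuous_const.dist continuous_id : Continuous fun y => dist x y).continuousOn
    exact ⟨y, hy, lt_of_le_of_lt (hmin hz) hxz, fun w hw => hmin hw⟩
  rw [near, dif_pos h]
  exact ⟨h.choose_spec.1, h.choose_spec.2.2 z hz⟩

theorem dist_near_lt (C : Set E) {r : ℝ} (hr : 0 < r) (x : E) : dist x (near C r x) < r := by
  unfold near
  split_ifs with h
  · exact h.choose_spec.2.1
  · rwa [dist_self]

theorem near_mem_or (C : Set E) (r : ℝ) (x : E) : near C r x ∈ C ∨ near C r x = x := by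
  unfold near
  split_ifs with h
  · exact Or.inl h.choose_spec.1
  · exact Or.inr rfl

theorem near_mem {C Y : Set E} (hCY : C ⊆ Y) (r : ℝ) {x : E} (hx : x ∈ Y) : near C r x ∈ Y := by
  rcases near_mem_or C r x with h | h
  · exact hCY h
  · rwa [h]

/-- The chain homotopy, on functions. -/
theorem sub_d_prism (ν : E → E) {n : ℕ} (f : (Fin (n + 1) → E) → k) :
    f - P265.AS.d (P265.AS.prism ν id f) =
      P265.AS.pb ν f + P265.AS.prism ν id (P265.AS.d f) := by
  funext x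
  have h := P265.AS.d_prism ν id f x
  rw [Pi.sub_apply, Pi.add_apply, P265.AS.pb_apply]
  rw [show id ∘ x = x from rfl] at h
  linear_combination -h

/-! ### Tautness -/

/-- Mixed tuples. -/
theorem mixed_dist {ν : E → E} {n m : ℕ} {x : Fin n → E} {y : Fin m → E} {δ η : ℝ} (hη : 0 ≤ η)
    (hx : ∀ i j, dist (x i) (x j) < δ) (hν : ∀ i, dist (x i) (ν (x i)) ≤ η)
    (hy : ∀ i, ∃ j, y i = ν (x j) ∨ y i = id (x j)) (i j : Fin m) :
    dist (y i) (y j) < δ + 2 * η := by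
  have key : ∀ i, ∃ l, dist (y i) (x l) ≤ η := by
    intro i
    obtain ⟨l, hl | hl⟩ := hy i
    · exact ⟨l, by rw [hl, dist_comm]; exact hν l⟩
    · exact ⟨l, by rw [hl]; simpa using hη⟩
  obtain ⟨l, hl⟩ := key i
  obtain ⟨l', hl'⟩ := key j
  have h1 := hx l l'
  have h2 := dist_triangle4 (y i) (x l) (x l') (y j)
  rw [dist_comm (x l') (y j)] at h2
  linarith

theorem mixed_mem {ν : E → E} {n m : ℕ} {x : Fin n → E} {y : Fin m → E} {Y : Set E}
    (hx : ∀ i, x i ∈ Y) (hν : ∀ i, ν (x i) ∈ Y)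
    (hy : ∀ i, ∃ j, y i = ν (x j) ∨ y i = id (x j)) (i : Fin m) : y i ∈ Y := by
  obtain ⟨l, hl | hl⟩ := hy i
  · rw [hl]; exact hν l
  · rw [hl]; exact hx l

theorem taut_mem (h : Tw a χ X) (hX : Inv a X) (hA : IsCompact A) (hAX : A ⊆ X)
    (hAi : Inv a A) {n : ℕ} {f : (Fin (n + 1) → E) → k}
    (hf : f ∈ Zc (Zr a χ X A) (Zn a χ X A) n) : f ∈ Bc (Zr a χ X A) (Zn a χ X A) n := by
  obtain ⟨⟨hfE, ε₀, hε₀, h0⟩, -, ε₁, hε₁, h1⟩ := hf
  have h0' : ∀ x, Sm A ε₀ x → f x = 0 := h0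
  have h1' : ∀ x, SmN X A ε₁ x → P265.AS.d f x = 0 := h1
  set ν := near A 1 with hν
  have hA0 : ∀ x ∈ A, dist x (ν x) ≤ 0 := fun x hx => by
    have := (near_spec hA hx (r := 1) (x := x) (by simp)).2
    simpa using this
  -- the primitive
  have hg : Van A (P265.AS.prism ν id f) := by
    refine ⟨ε₀, hε₀, fun x hx => P265.AS.prism_eq_zero _ _ fun y hy => h0' y ?_⟩
    refine ⟨mixed_mem hx.1 (fun i => near_mem le_rfl 1 (hx.1 i)) hy, fun i j => ?_⟩
    have := mixed_dist le_rfl hx.2 (fun i => hA0 _ (hx.1 i)) hy i j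
    simpa using this
  have hh : VanN X A (f - P265.AS.d (P265.AS.prism ν id f)) := by
    rw [sub_d_prism]
    have hpos : 0 < min (min (ε₀ / 3) (ε₁ / 3)) 1 := by positivity
    refine ⟨min (min (ε₀ / 3) (ε₁ / 3)) 1, hpos, fun x hx => ?_⟩
    set ε := min (min (ε₀ / 3) (ε₁ / 3)) 1 with hε
    have e0 : ε ≤ ε₀ / 3 := (min_le_left _ _).trans (min_le_left _ _)
    have e1 : ε ≤ ε₁ / 3 := (min_le_left _ _).trans (min_le_right _ _)
    have e2 : ε ≤ 1 := min_le_right _ _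
    have hν' : ∀ i, ν (x i) ∈ A ∧ dist (x i) (ν (x i)) < ε := fun i => by
      obtain ⟨y, hy, hxy⟩ := hx.2 i
      have := near_spec hA hy (hxy.trans_le e2)
      exact ⟨this.1, this.2.trans_lt hxy⟩
    rw [Pi.add_apply, P265.AS.pb_apply, h0' (ν ∘ x), zero_add]
    · refine P265.AS.prism_eq_zero _ _ fun y hy => h1' y ⟨⟨mixed_mem hx.1.1
        (fun i => hAX (hν' i).1) hy, fun i j => ?_⟩, fun i => ?_⟩
      · have := mixed_dist hpos.le hx.1.2 (fun i => (hν' i).2.le) hy i j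
        linarith
      · obtain ⟨l, hl | hl⟩ := hy i
        · exact ⟨ν (x l), (hν' l).1, by rw [hl]; simpa using hε₁⟩
        · exact ⟨ν (x l), (hν' l).1, by rw [hl]; exact (hν' l).2.trans_le (by linarith)⟩
    · refine ⟨fun i => (hν' i).1, fun i j => ?_⟩
      have h3 := hx.1.2 i j
      have h4 := (hν' i).2
      have h5 := (hν' j).2
      have h6 := dist_triangle4 (ν (x i)) (x i) (x j) (ν (x j))
      rw [dist_comm (ν (x i)) (x i)] at h6
      change dist (ν (x i)) (ν (x j)) < ε₀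
      linarith
  -- averaging
  have hfin : VanN X A (f - P265.AS.d (av a χ n (P265.AS.prism ν id f))) := by
    have h3 := av_vanN h hX hAi hAX hh
    rw [map_sub, ← d_av] at h3
    obtain ⟨ε, hε, h4⟩ := h3
    refine ⟨ε, hε, fun x hx => ?_⟩
    have h5 := h4 x hx
    rw [Pi.sub_apply, av_eq h hfE hx.1.1] at h5
    exact h5
  have hE : Eqv a χ X (f - P265.AS.d (av a χ n (P265.AS.prism ν id f))) :=
    hfE.sub (av_eqv h hX _).d
  cases n with
  | zero =>
    rw [mem_Bc_zero]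
    have h6 : P265.AS.d (av a χ 0 (P265.AS.prism ν id f)) = 0 := by
      change P265.AS.d (av a χ 0 (0 : (Fin 0 → E) → k)) = 0
      rw [map_zero, P265.AS.d_zero]
    rw [h6, sub_zero] at hfin hE
    exact ⟨hE, hfin⟩
  | succ n =>
    rw [mem_Bc_succ]
    exact ⟨av a χ (n + 1) (P265.AS.prism ν id f),
      ⟨av_eqv h hX _, av_van (h.mono hAX) hAi hg⟩, hE, hfin⟩

/-- (T1) **Tautness**. -/
theorem taut (h : Tw a χ X) (hX : Inv a X) (hA : IsCompact A) (hAX : A ⊆ X)
    (hAi : Inv a A) (n : ℕ) : Subsingleton (H (Zr a χ X A) (Zn a χ X A) n) :=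
  H.subsingleton_iff.2 fun _ hx => taut_mem h hX hA hAX hAi hx

/-- (T3) A cochain vanishing near `A` vanishes on the small tuples of a neighbourhood of `A`. -/
theorem exists_nhd {n : ℕ} {f : (Fin n → E) → k} (hf : VanN X A f) :
    ∃ ε > 0, Van {x ∈ X | ∃ y ∈ A, dist x y < ε} f := by
  obtain ⟨ε, hε, h⟩ := hf
  exact ⟨ε, hε, ε, hε, fun x hx => h x ⟨⟨fun i => (hx.1 i).1, hx.2⟩, fun i => (hx.1 i).2⟩⟩

/-- Sums of the cochains: no hypothesis on the sets. -/
theorem Zr_sup (hA : Inv a A) : Zr a χ X A ⊔ Zr a χ X B = Zr a χ X (A ∩ B) := by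
  apply le_antisymm
  · exact sup_le (Zr_anti le_rfl inter_subset_left) (Zr_anti le_rfl inter_subset_right)
  · intro n f hf
    rw [Sub.sup_apply, Submodule.mem_sup]
    obtain ⟨hfE, ε, hε, h⟩ := hf
    refine ⟨f - P265.AS.rs k A (n + 1) f, ⟨hfE.sub ?_, 1, one_pos, fun x hx => ?_⟩,
      P265.AS.rs k A (n + 1) f, ⟨?_, ε, hε, fun x hx => ?_⟩, sub_add_cancel _ _⟩
    · intro i x hx
      by_cases hx' : ∀ j, x j ∈ A
      · rw [P265.AS.rs_of_mem hx', P265.AS.rs_of_mem (x := a i ∘ x) fun j => (hA i _).2 (hx' j)]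
        exact hfE i x hx
      · rw [P265.AS.rs_of_notMem hx', P265.AS.rs_of_notMem, mul_zero]
        exact fun h' => hx' fun j => (hA i _).1 (h' j)
    · rw [Pi.sub_apply, P265.AS.rs_of_mem hx.1, sub_self]
    · intro i x hx
      by_cases hx' : ∀ j, x j ∈ A
      · rw [P265.AS.rs_of_mem hx', P265.AS.rs_of_mem (x := a i ∘ x) fun j => (hA i _).2 (hx' j)]
        exact hfE i x hx
      · rw [P265.AS.rs_of_notMem hx', P265.AS.rs_of_notMem, mul_zero]
        exact fun h' => hx' fun j => (hA i _).1 (h' j)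
    · by_cases hx' : ∀ j, x j ∈ A
      · rw [P265.AS.rs_of_mem hx']
        exact h x ⟨fun j => ⟨hx' j, hx.1 j⟩, hx.2⟩
      · exact P265.AS.rs_of_notMem hx'

end

section MetricSp

variable [MetricSpace E] {a : I → E → E} {χ : I → k} {X A B : Set E}

/-- Points of two compact sets which are close to each other are close to the intersection. -/
theorem exists_near_inter (hA : IsCompact A) (hB : IsCompact B) {r : ℝ} (hr : 0 < r) :
    ∃ δ > 0, ∀ x ∈ A, ∀ y ∈ B, dist x y < δ → ∃ c ∈ A ∩ B, dist x c < r := by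
  by_contra hcon
  push Not at hcon
  have hK : IsCompact ((A ×ˢ B) ∩ {p : E × E | ∀ c ∈ A ∩ B, r ≤ dist p.1 c}) := by
    apply (hA.prod hB).inter_right
    have : {p : E × E | ∀ c ∈ A ∩ B, r ≤ dist p.1 c} =
        ⋂ c ∈ A ∩ B, {p : E × E | r ≤ dist p.1 c} := by
      ext p; simp
    rw [this]
    exact isClosed_biInter fun c _ =>
      isClosed_le continuous_const (continuous_fst.dist continuous_const)
  have hne : ((A ×ˢ B) ∩ {p : E × E | ∀ c ∈ A ∩ B, r ≤ dist p.1 c}).Nonempty := by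
    obtain ⟨x, hx, y, hy, -, h⟩ := hcon 1 one_pos
    exact ⟨(x, y), ⟨hx, hy⟩, h⟩
  obtain ⟨⟨x, y⟩, ⟨⟨hx, hy⟩, hxy⟩, hmin⟩ := hK.exists_isMinOn hne
    (continuous_fst.dist continuous_snd : Continuous fun p : E × E => dist p.1 p.2).continuousOn
  have h1 : 0 < dist x y := by
    apply dist_pos.2
    rintro rfl
    have := hxy x ⟨hx, hy⟩
    rw [dist_self] at this
    linarith
  obtain ⟨x', hx', y', hy', hd, h⟩ := hcon _ h1
  have := hmin (a := (x', y')) ⟨⟨hx', hy'⟩, h⟩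
  exact absurd hd (not_lt.2 this)

theorem mv_acyclic_mem (h : Tw a χ X) (hX : Inv a X) (hA : IsCompact A) (hB : IsCompact B)
    (hAX : A ⊆ X) (hBX : B ⊆ X) (hAi : Inv a A) (hBi : Inv a B) {n : ℕ}
    {f : (Fin (n + 1) → E) → k}
    (hf : f ∈ Zc (Zr a χ X A ⊓ Zr a χ X B) (Zr a χ X (A ∪ B)) n) :
    f ∈ Bc (Zr a χ X A ⊓ Zr a χ X B) (Zr a χ X (A ∪ B)) n := by
  obtain ⟨⟨⟨hfE, ε₁, hε₁, h1⟩, -, ε₂, hε₂, h2⟩, -, ε₃, hε₃, h3⟩ := hf
  have h1' : ∀ x, Sm A ε₁ x → f x = 0 := h1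
  have h2' : ∀ x, Sm B ε₂ x → f x = 0 := h2
  have h3' : ∀ x, Sm (A ∪ B) ε₃ x → P265.AS.d f x = 0 := h3
  set ε₀ := min (min ε₁ ε₂) ε₃ with hε₀d
  have hε₀ : 0 < ε₀ := by positivity
  have e1 : ε₀ ≤ ε₁ := (min_le_left _ _).trans (min_le_left _ _)
  have e2 : ε₀ ≤ ε₂ := (min_le_left _ _).trans (min_le_right _ _)
  have e3 : ε₀ ≤ ε₃ := min_le_right _ _
  set r := ε₀ / 3 with hr
  have hr0 : 0 < r := by positivity
  obtain ⟨δ, hδ, hAB⟩ := exists_near_inter hA hB (r := r / 2) (by positivity)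
  set ν := near (A ∩ B) r with hν
  have hνA : ∀ x ∈ A, ν x ∈ A := fun x hx => near_mem inter_subset_left r hx
  have hνB : ∀ x ∈ B, ν x ∈ B := fun x hx => near_mem inter_subset_right r hx
  have hνd : ∀ x, dist x (ν x) ≤ r := fun x => (dist_near_lt _ hr0 x).le
  have hgA : Van A (P265.AS.prism ν id f) := by
    refine ⟨r, hr0, fun x hx => P265.AS.prism_eq_zero _ _ fun y hy => h1' y ?_⟩
    refine ⟨mixed_mem hx.1 (fun i => hνA _ (hx.1 i)) hy, fun i j => ?_⟩
    have := mixed_dist hr0.le hx.2 (fun i => hνd _) hy i j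
    linarith
  have hgB : Van B (P265.AS.prism ν id f) := by
    refine ⟨r, hr0, fun x hx => P265.AS.prism_eq_zero _ _ fun y hy => h2' y ?_⟩
    refine ⟨mixed_mem hx.1 (fun i => hνB _ (hx.1 i)) hy, fun i j => ?_⟩
    have := mixed_dist hr0.le hx.2 (fun i => hνd _) hy i j
    linarith
  have hcompB : ∀ x ∈ B, ∀ y ∈ A, dist x y < δ → ∃ c ∈ A ∩ B, dist y c < r / 2 :=
    fun x hx y hy hxy => hAB y hy x hx (by rwa [dist_comm])
  have hh : Van (A ∪ B) (f - P265.AS.d (P265.AS.prism ν id f)) := by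
    rw [sub_d_prism]
    have hpos : 0 < min δ (r / 2) := by positivity
    refine ⟨min δ (r / 2), hpos, fun x hx => ?_⟩
    have d1 : ∀ i j, dist (x i) (x j) < δ := fun i j => (hx.2 i j).trans_le (min_le_left _ _)
    have d2 : ∀ i j, dist (x i) (x j) < r / 2 := fun i j =>
      (hx.2 i j).trans_le (min_le_right _ _)
    have dν : ∀ i j, dist (ν (x i)) (ν (x j)) < ε₀ := fun i j => by
      have h6 := dist_triangle4 (ν (x i)) (x i) (x j) (ν (x j))
      rw [dist_comm (ν (x i)) (x i)] at h6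
      have := hνd (x i)
      have := hνd (x j)
      have := d2 i j
      linarith
    rw [Pi.add_apply, P265.AS.pb_apply]
    have hpb : f (ν ∘ x) = 0 := by
      by_cases hxA : ∀ i, x i ∈ A
      · exact h1' _ ⟨fun i => hνA _ (hxA i), fun i j => (dν i j).trans_le e1⟩
      · by_cases hxB : ∀ i, x i ∈ B
        · exact h2' _ ⟨fun i => hνB _ (hxB i), fun i j => (dν i j).trans_le e2⟩
        · push Not at hxA hxB
          obtain ⟨i, hi⟩ := hxA
          obtain ⟨j, hj⟩ := hxB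
          have hiB : x i ∈ B := (hx.1 i).resolve_left hi
          have hjA : x j ∈ A := (hx.1 j).resolve_right hj
          obtain ⟨c, hc, hcj⟩ := hcompB _ hiB _ hjA (d1 i j)
          refine h1' _ ⟨fun l => ?_, fun i j => (dν i j).trans_le e1⟩
          have : dist (x l) c < r := by
            have := dist_triangle (x l) (x j) c
            have := d2 l j
            linarith
          exact (near_spec (hA.inter_right hB.isClosed) hc this).1.1
    rw [hpb, zero_add]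
    refine P265.AS.prism_eq_zero _ _ fun y hy => h3' y ⟨mixed_mem hx.1 (fun i => ?_) hy,
      fun i j => ?_⟩
    · rcases hx.1 i with hi | hi
      · exact Or.inl (hνA _ hi)
      · exact Or.inr (hνB _ hi)
    · have := mixed_dist hr0.le d2 (fun i => hνd _) hy i j
      linarith
  -- averaging
  have hABX : A ∪ B ⊆ X := union_subset hAX hBX
  have hfin : Van (A ∪ B) (f - P265.AS.d (av a χ n (P265.AS.prism ν id f))) := by
    have h4 := av_van (h.mono hABX) (hAi.union hBi) hh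
    rw [map_sub, ← d_av] at h4
    obtain ⟨ε, hε, h4⟩ := h4
    refine ⟨ε, hε, fun x hx => ?_⟩
    have h5 := h4 x hx
    rw [Pi.sub_apply, av_eq h hfE fun j => hABX (hx.1 j)] at h5
    exact h5
  have hE : Eqv a χ X (f - P265.AS.d (av a χ n (P265.AS.prism ν id f))) :=
    hfE.sub (av_eqv h hX _).d
  cases n with
  | zero =>
    rw [mem_Bc_zero]
    have h6 : P265.AS.d (av a χ 0 (P265.AS.prism ν id f)) = 0 := by
      change P265.AS.d (av a χ 0 (0 : (Fin 0 → E) → k)) = 0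
      rw [map_zero, P265.AS.d_zero]
    rw [h6, sub_zero] at hfin hE
    exact ⟨hE, hfin⟩
  | succ n =>
    rw [mem_Bc_succ]
    exact ⟨av a χ (n + 1) (P265.AS.prism ν id f),
      ⟨⟨av_eqv h hX _, av_van (h.mono hAX) hAi hgA⟩,
        ⟨av_eqv h hX _, av_van (h.mono hBX) hBi hgB⟩⟩, hE, hfin⟩

/-- (T2) **Exact Mayer-Vietoris** for compact sets. -/
theorem mv_acyclic (h : Tw a χ X) (hX : Inv a X) (hA : IsCompact A) (hB : IsCompact B)
    (hAX : A ⊆ X) (hBX : B ⊆ X) (hAi : Inv a A) (hBi : Inv a B) (n : ℕ) :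
    Subsingleton (H (Zr a χ X A ⊓ Zr a χ X B) (Zr a χ X (A ∪ B)) n) :=
  H.subsingleton_iff.2 fun _ hx => mv_acyclic_mem h hX hA hB hAX hBX hAi hBi hx

end MetricSp

end Vale.Agent.P216R.AS
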